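import Vale.Agent.P235.Comp.Defs

namespace Vale.Agent.P235

/-- For `a < b < c < d` every walk from `x a` to `x c` meets every walk from `x b` to `x d`. (For a
plane drawing of `G` this holds for the vertices on the boundary of a face, listed in their order
along this boundary.) -/
def Crossless {V : Type} (G : SimpleGraph V) {n : ℕ} (x : Fin n → V) : Prop :=
  ∀ a b c d : Fin n, a < b → b < c → c < d →
    ∀ (p : G.Walk (x a) (x c)) (q : G.Walk (x b) (x d)), ∃ z, z ∈ p.support ∧ z ∈ q.support

end Vale.Agent.P235
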