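import Vale.Agent.P235.Comp.PathSum
import Vale.Agent.P235.H873.FaceDefs

/-!
# The Okamura-Seymour map
The map `v ↦ ((d(v, x i) - d(v, x (i+1))) / 4)` is nonexpansive on all vertices and isometric on
the outer vertices.
-/

set_option linter.all false
set_option autoImplicit false

namespace Vale.Agent.P235.H873

open Vale.Agent.P235 Finset

/-- cyclic total variation -/
noncomputable def tv (n : ℕ) (φ : ℕ → ℝ) : ℝ :=
  (∑ i ∈ range n, |φ (i + 1) - φ i|) + |φ n - φ 0|

/-- no two separated high and two separated low values -/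
def NoAlt (n : ℕ) (φ : ℕ → ℝ) : Prop :=
  ∀ i j k l, i < j → j < k → k < l → l ≤ n →
    ¬ (max (φ j) (φ l) < min (φ i) (φ k)) ∧ ¬ (max (φ i) (φ k) < min (φ j) (φ l))

theorem tele_up {φ : ℕ → ℝ} {a b : ℕ} (hab : a ≤ b)
    (h : ∀ i j, a ≤ i → i < j → j ≤ b → φ i ≤ φ j) :
    ∑ i ∈ Ico a b, |φ (i + 1) - φ i| = φ b - φ a := by
  induction b, hab using Nat.le_induction with
  | base => simp
  | succ b hab ih =>
    rw [Finset.sum_Ico_succ_top hab, ih fun i j h1 h2 h3 => h i j h1 h2 (h3.trans b.le_succ),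
      abs_of_nonneg (sub_nonneg.2 (h b (b + 1) hab (Nat.lt_succ_self b) le_rfl))]
    ring

theorem tele_down {φ : ℕ → ℝ} {a b : ℕ} (hab : a ≤ b)
    (h : ∀ i j, a ≤ i → i < j → j ≤ b → φ j ≤ φ i) :
    ∑ i ∈ Ico a b, |φ (i + 1) - φ i| = φ a - φ b := by
  have := tele_up (φ := fun i => - φ i) hab fun i j h1 h2 h3 => neg_le_neg (h i j h1 h2 h3)
  have e : ∀ i, |- φ (i + 1) - - φ i| = |φ (i + 1) - φ i| := by
    intro i
    rw [neg_sub_neg, abs_sub_comm]
  simp only [e] at this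
  rw [this]
  ring

theorem tv_neg (n : ℕ) (φ : ℕ → ℝ) : tv n (fun i => - φ i) = tv n φ := by
  unfold tv
  have e : ∀ a b : ℝ, |-a - -b| = |a - b| := by
    intro a b
    rw [neg_sub_neg, abs_sub_comm]
  simp only [e]

theorem NoAlt.neg {n : ℕ} {φ : ℕ → ℝ} (h : NoAlt n φ) : NoAlt n (fun i => - φ i) := by
  intro i j k l h1 h2 h3 h4
  obtain ⟨a, b⟩ := h i j k l h1 h2 h3 h4
  constructor
  · intro h5
    apply b
    simp only [max_lt_iff, lt_min_iff] at h5 ⊢
    exact ⟨⟨by linarith [h5.1.1], by linarith [h5.2.1]⟩, ⟨by linarith [h5.1.2], by linarith [h5.2.2]⟩⟩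
  · intro h5
    apply a
    simp only [max_lt_iff, lt_min_iff] at h5 ⊢
    exact ⟨⟨by linarith [h5.1.1], by linarith [h5.2.1]⟩, ⟨by linarith [h5.1.2], by linarith [h5.2.2]⟩⟩

/-- the minimum is at `q`, the maximum at `p`, and `q < p` -/
theorem tv_aux {n : ℕ} {φ : ℕ → ℝ} (h : NoAlt n φ) {p q : ℕ} (hq : q < p) (hp : p ≤ n)
    (hmax : ∀ i ≤ n, φ i ≤ φ p) (hmin : ∀ i ≤ n, φ q ≤ φ i) : tv n φ = 2 * (φ p - φ q) := by
  have hqp : φ q ≤ φ p := hmax q (hq.le.trans hp)
  -- up on `[q, p]`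
  have h1 : ∀ i j, q ≤ i → i < j → j ≤ p → φ i ≤ φ j := by
    intro i j hi hij hj
    by_contra hc
    push Not at hc
    have hqj := hmin j (hj.trans hp)
    have hip := hmax i ((hij.le.trans hj).trans hp)
    rcases hi.eq_or_lt with rfl | hi
    · linarith
    rcases hj.eq_or_lt with rfl | hj
    · linarith
    refine (h q i j p hi hij hj hp).2 ?_
    rw [max_lt_iff, lt_min_iff, lt_min_iff]
    refine ⟨⟨?_, ?_⟩, ⟨?_, ?_⟩⟩ <;> linarith
  -- down on `[p, n]`
  have h2 : ∀ i j, p ≤ i → i < j → j ≤ n → φ j ≤ φ i := by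
    intro i j hi hij hj
    by_contra hc
    push Not at hc
    have hqi := hmin i (hij.le.trans hj)
    have hjp := hmax j hj
    rcases hi.eq_or_lt with rfl | hi
    · linarith
    refine (h q p i j hq hi hij hj).2 ?_
    rw [max_lt_iff, lt_min_iff, lt_min_iff]
    refine ⟨⟨?_, ?_⟩, ⟨?_, ?_⟩⟩ <;> linarith
  -- down on `[0, q]`
  have h3 : ∀ i j, 0 ≤ i → i < j → j ≤ q → φ j ≤ φ i := by
    intro i j _ hij hj
    by_contra hc
    push Not at hc
    have hqi := hmin i ((hij.le.trans hj).trans (hq.le.trans hp))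
    have hjp := hmax j (hj.trans (hq.le.trans hp))
    rcases hj.eq_or_lt with rfl | hj
    · linarith
    refine (h i j q p hij hj hq hp).2 ?_
    rw [max_lt_iff, lt_min_iff, lt_min_iff]
    refine ⟨⟨?_, ?_⟩, ⟨?_, ?_⟩⟩ <;> linarith
  -- down from `n` to `0`
  have h4 : φ 0 ≤ φ n := by
    by_contra hc
    push Not at hc
    have h0p := hmax 0 (Nat.zero_le _)
    have hqn := hmin n le_rfl
    rcases hp.eq_or_lt with rfl | hp
    · linarith
    rcases (Nat.zero_le q).eq_or_lt with rfl | hq0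
    · linarith
    refine (h 0 q p n hq0 hq hp le_rfl).1 ?_
    rw [max_lt_iff, lt_min_iff, lt_min_iff]
    refine ⟨⟨?_, ?_⟩, ⟨?_, ?_⟩⟩ <;> linarith
  unfold tv
  rw [Finset.range_eq_Ico, ← Finset.sum_Ico_consecutive _ (Nat.zero_le q) (hq.le.trans hp),
    ← Finset.sum_Ico_consecutive _ hq.le hp, tele_down (Nat.zero_le q) h3, tele_up hq.le h1,
    tele_down hp h2, abs_of_nonneg (sub_nonneg.2 h4)]
  ring

theorem tv_le {n : ℕ} {φ : ℕ → ℝ} (h : NoAlt n φ) {M : ℝ} (hM : ∀ i ≤ n, |φ i| ≤ M) :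
    tv n φ ≤ 4 * M := by
  obtain ⟨p, hp, hmax⟩ := Finset.exists_max_image (range (n + 1)) φ ⟨0, by simp⟩
  obtain ⟨q, hq, hmin⟩ := Finset.exists_min_image (range (n + 1)) φ ⟨0, by simp⟩
  rw [Finset.mem_range, Nat.lt_succ_iff] at hp hq
  have hmax' : ∀ i ≤ n, φ i ≤ φ p := fun i hi => hmax i (by simpa [Nat.lt_succ_iff] using hi)
  have hmin' : ∀ i ≤ n, φ q ≤ φ i := fun i hi => hmin i (by simpa [Nat.lt_succ_iff] using hi)
  have h1 := (abs_le.1 (hM p hp)).2
  have h2 := (abs_le.1 (hM q hq)).1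
  rcases lt_trichotomy q p with hlt | heq | hlt
  · rw [tv_aux h hlt hp hmax' hmin']
    linarith
  · subst heq
    have hc : ∀ i ≤ n, φ i = φ q := fun i hi => le_antisymm (hmax' i hi) (hmin' i hi)
    have : tv n φ = 0 := by
      unfold tv
      rw [hc n le_rfl, hc 0 (Nat.zero_le _), sub_self, abs_zero, add_zero]
      refine Finset.sum_eq_zero fun i hi => ?_
      rw [Finset.mem_range] at hi
      rw [hc (i + 1) hi, hc i hi.le, sub_self, abs_zero]
    rw [this]
    have := abs_nonneg (φ q)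
    linarith [hM q hq]
  · have := tv_aux h.neg (p := q) (q := p) hlt hq (fun i hi => neg_le_neg (hmin' i hi))
      (fun i hi => neg_le_neg (hmax' i hi))
    rw [tv_neg] at this
    rw [this]
    linarith

theorem tv_ge {n : ℕ} {φ : ℕ → ℝ} {p q : ℕ} (hp : p ≤ n) (hq : q ≤ n) :
    2 * (φ p - φ q) ≤ tv n φ := by
  have key : ∀ (a b : ℕ), a ≤ b → b ≤ n → 2 * |φ b - φ a| ≤ tv n φ := by
    intro a b hab hb
    have s : ∀ c e, c ≤ e → |φ e - φ c| ≤ ∑ i ∈ Ico c e, |φ (i + 1) - φ i| := by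
      intro c e hce
      induction e, hce using Nat.le_induction with
      | base => simp
      | succ e hce ih =>
        rw [Finset.sum_Ico_succ_top hce]
        calc |φ (e + 1) - φ c| = |(φ e - φ c) + (φ (e + 1) - φ e)| := by congr 1; ring
          _ ≤ _ := (abs_add_le _ _).trans (by linarith)
    unfold tv
    rw [Finset.range_eq_Ico, ← Finset.sum_Ico_consecutive _ (Nat.zero_le a) (hab.trans hb),
      ← Finset.sum_Ico_consecutive _ hab hb]
    have h1 := s 0 a (Nat.zero_le a)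
    have h2 := s a b hab
    have h3 := s b n hb
    have h4 : |φ b - φ a| ≤ |φ a - φ 0| + |φ n - φ b| + |φ n - φ 0| := by
      have e : φ b - φ a = -(φ a - φ 0) + -(φ n - φ b) + (φ n - φ 0) := by ring
      rw [e]
      refine (abs_add_three _ _ _).trans ?_
      rw [abs_neg, abs_neg]
    linarith
  rcases le_total q p with h | h
  · have := key q p h hp
    linarith [le_abs_self (φ p - φ q)]
  · have := key p q h hq
    rw [abs_sub_comm] at this
    linarith [le_abs_self (φ p - φ q)]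

variable {V : Type} {G : SimpleGraph V} {ℓ : Sym2 V → ℝ}

/-- two walks from `u` and two walks from `v` which cross -/
theorem swap [Finite V] (hc : G.Connected) (hℓ : ∀ e ∈ G.edgeSet, 0 < ℓ e) {u v a b c e : V}
    (hcr : ∀ (p : G.Walk a c) (q : G.Walk b e), ∃ w, w ∈ p.support ∧ w ∈ q.support) :
    ¬ (max (pathDist G ℓ u b - pathDist G ℓ v b) (pathDist G ℓ u e - pathDist G ℓ v e) <
      min (pathDist G ℓ u a - pathDist G ℓ v a) (pathDist G ℓ u c - pathDist G ℓ v c)) := by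
  classical
  have hd := pathDist_isMet hc hℓ
  intro hlt
  rw [max_lt_iff, lt_min_iff, lt_min_iff] at hlt
  -- geodesics from `v` to `a, c`, from `u` to `b, e`
  obtain ⟨pa, hpa⟩ := exists_geodesic hc hℓ v a
  obtain ⟨pc, hpc⟩ := exists_geodesic hc hℓ v c
  obtain ⟨pb, hpb⟩ := exists_geodesic hc hℓ u b
  obtain ⟨pe, hpe⟩ := exists_geodesic hc hℓ u e
  obtain ⟨w, h1, h2⟩ := hcr (pa.reverse.append pc) (pb.reverse.append pe)
  rw [SimpleGraph.Walk.mem_support_append_iff, SimpleGraph.Walk.support_reverse,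
    List.mem_reverse] at h1 h2
  have split : ∀ {s t : V} (p : G.Walk s t), (p.edges.map ℓ).sum = pathDist G ℓ s t →
      w ∈ p.support → pathDist G ℓ s w + pathDist G ℓ w t ≤ pathDist G ℓ s t := by
    intro s t p hp hw
    rw [← hp, ← p.take_spec hw, SimpleGraph.Walk.edges_append, List.map_append, List.sum_append]
    exact add_le_add (pathDist_le hℓ _) (pathDist_le hℓ _)
  have fin : ∀ s t : V, pathDist G ℓ v w + pathDist G ℓ w s ≤ pathDist G ℓ v s →
      pathDist G ℓ u w + pathDist G ℓ w t ≤ pathDist G ℓ u t →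
      pathDist G ℓ u s - pathDist G ℓ v s ≤ pathDist G ℓ u t - pathDist G ℓ v t := by
    intro s t h3 h4
    have t1 := hd.tri u w s
    have t2 := hd.tri v w t
    linarith
  rcases h1 with h1 | h1 <;> rcases h2 with h2 | h2
  · have := fin a b (split _ hpa h1) (split _ hpb h2); linarith [hlt.1.1]
  · have := fin a e (split _ hpa h1) (split _ hpe h2); linarith [hlt.2.1]
  · have := fin c b (split _ hpc h1) (split _ hpb h2); linarith [hlt.1.2]
  · have := fin c e (split _ hpc h1) (split _ hpe h2); linarith [hlt.2.2]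

/-- **Okamura-Seymour, with a nonexpansive extension to all vertices.** -/
theorem os_map [Finite V] (hc : G.Connected) (hℓ : ∀ e ∈ G.edgeSet, 0 < ℓ e) {m : ℕ}
    {x : Fin m → V} (hx : Crossless G x) :
    ∃ F : V → V → ℝ, IsL1 F ∧ (∀ u v, F u v ≤ pathDist G ℓ u v) ∧
      ∀ i j, F (x i) (x j) = pathDist G ℓ (x i) (x j) := by
  classical
  have hd := pathDist_isMet hc hℓ
  rcases m with _ | n
  · exact ⟨fun _ _ => 0, IsL1.zero, fun u v => hd.nonneg u v, fun i => i.elim0⟩
  -- extend the sequence to all natural numbers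
  let y : ℕ → V := fun i => if h : i < n + 1 then x ⟨i, h⟩ else x 0
  have hy : ∀ i (h : i < n + 1), y i = x ⟨i, h⟩ := fun i h => dif_pos h
  let φ : V → V → ℕ → ℝ := fun u v i => pathDist G ℓ u (y i) - pathDist G ℓ v (y i)
  have hbd : ∀ u v i, |φ u v i| ≤ pathDist G ℓ u v := by
    intro u v i
    have h1 := hd.tri u v (y i)
    have h2 := hd.tri v u (y i)
    rw [hd.symm v u] at h2
    simp only [φ]
    rw [abs_le]; constructor <;> linarith
  have hna : ∀ u v, NoAlt n (φ u v) := by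
    intro u v i j k l hij hjk hkl hl
    have hi : i < n + 1 := by omega
    have hj : j < n + 1 := by omega
    have hk : k < n + 1 := by omega
    have hl' : l < n + 1 := by omega
    have hcr := hx ⟨i, hi⟩ ⟨j, hj⟩ ⟨k, hk⟩ ⟨l, hl'⟩ hij hjk hkl
    rw [← hy i hi, ← hy j hj, ← hy k hk, ← hy l hl'] at hcr
    refine ⟨swap hc hℓ hcr, swap hc hℓ ?_⟩
    intro p q
    obtain ⟨w, h1, h2⟩ := hcr q p
    exact ⟨w, h2, h1⟩
  have hIsL1 : IsL1 (fun u v => 1 / 4 * tv n (φ u v)) := by
    refine IsL1.smul ?_ (by norm_num)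
    have h1 : IsL1 (fun u v => ∑ i ∈ range n,
        |(pathDist G ℓ u (y (i + 1)) - pathDist G ℓ u (y i)) -
          (pathDist G ℓ v (y (i + 1)) - pathDist G ℓ v (y i))|) :=
      IsL1.sum (range n) (fun i u v => |(pathDist G ℓ u (y (i + 1)) - pathDist G ℓ u (y i)) -
          (pathDist G ℓ v (y (i + 1)) - pathDist G ℓ v (y i))|) fun i _ =>
        isL1_line fun u => pathDist G ℓ u (y (i + 1)) - pathDist G ℓ u (y i)
    have h2 : IsL1 (fun u v => |(pathDist G ℓ u (y n) - pathDist G ℓ u (y 0)) -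
          (pathDist G ℓ v (y n) - pathDist G ℓ v (y 0))|) :=
      isL1_line fun u => pathDist G ℓ u (y n) - pathDist G ℓ u (y 0)
    refine (h1.add h2).congr fun u v => ?_
    unfold tv
    simp only [φ]
    congr 1
    · refine Finset.sum_congr rfl fun i _ => ?_
      congr 1; ring
    · congr 1; ring
  refine ⟨_, hIsL1, ?_, ?_⟩
  · intro u v
    have := tv_le (hna u v) (M := pathDist G ℓ u v) (fun i _ => hbd u v i)
    show 1 / 4 * tv n (φ u v) ≤ _
    linarith
  · intro i j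
    have h1 := tv_le (hna (x i) (x j)) (M := pathDist G ℓ (x i) (x j)) (fun k _ => hbd _ _ k)
    have h2 := tv_ge (n := n) (φ := φ (x i) (x j)) (p := j) (q := i) (by omega) (by omega)
    have e1 : y i = x i := hy i i.2
    have e2 : y j = x j := hy j j.2
    simp only [φ, e1, e2, hd.self] at h2
    rw [hd.symm (x j) (x i)] at h2
    show 1 / 4 * tv n (φ (x i) (x j)) = _
    refine le_antisymm (by linarith) ?_
    have h3 : tv n (fun k => pathDist G ℓ (x i) (y k) - pathDist G ℓ (x j) (y k)) =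
      tv n (φ (x i) (x j)) := rfl
    linarith

end Vale.Agent.P235.H873

namespace Vale.Agent.P235

/-- **Okamura-Seymour** in the form used by the rounds. -/
theorem os_map {V : Type} [Finite V] {G : SimpleGraph V} {ℓ : Sym2 V → ℝ} (hc : G.Connected)
    (hℓ : ∀ e ∈ G.edgeSet, 0 < ℓ e) {n : ℕ} {x : Fin n → V} (hx : Crossless G x) :
    ∃ F : V → V → ℝ, IsL1 F ∧ (∀ u v, F u v ≤ pathDist G ℓ u v) ∧
      ∀ i j, pathDist G ℓ (x i) (x j) ≤ F (x i) (x j) := by
  obtain ⟨F, h1, h2, h3⟩ := H873.os_map hc hℓ hx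
  exact ⟨F, h1, h2, fun i j => (h3 i j).ge⟩

end Vale.Agent.P235
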