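import Vale.Agent.P235.H873.Apex
import Vale.Agent.P235.H206.Line

/-!
The line form of the additive bound after deleting a set of vertices.
-/

set_option linter.all false
set_option autoImplicit false

open Finset MeasureTheory

namespace Vale.Agent.P235.H873

open Vale.Agent.P235

section Bour

variable {V : Type} [Finite V] {d : V → V → ℝ}

/-- the main inequality of Bourgain's theorem for distances to random subsets of `X` -/
theorem bourgain_sum (hsym : ∀ x y, d x y = d y x) (htri : ∀ x y z, d x z ≤ d x y + d y z)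
    (hnn : ∀ x y, 0 ≤ d x y) (X : Finset V) (D : V → ℝ) (hD : ∀ u, ∃ x ∈ X, d u x ≤ D u) (x y : V) :
    d x y / 2 - max (D x) (D y) ≤ 12 * ∑ i ∈ Finset.Icc 1 (Nat.log 2 X.card + 1) ×ˢ X.powerset,
      wt X i.2 (1 / 2 ^ i.1) * |dS d i.2 x - dS d i.2 y| := by
  classical
  obtain ⟨m, hm⟩ : ∃ m, m = Nat.log 2 X.card + 1 := ⟨_, rfl⟩
  obtain ⟨p, hp⟩ : ∃ p : ℕ → ℝ, p = fun j => 1 / 2 ^ j := ⟨_, rfl⟩
  have hp0 : ∀ j, 0 ≤ p j := fun j => by rw [hp]; positivity
  have hp1 : ∀ j, p j ≤ 1 := fun j => by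
    rw [hp]
    show (1 : ℝ) / 2 ^ j ≤ 1
    rw [div_le_one (by positivity)]
    exact one_le_pow₀ (by norm_num)
  have hw : ∀ i : ℕ × Finset V, 0 ≤ wt X i.2 (p i.1) := fun i => wt_nonneg X _ (hp0 _) (hp1 _)
  have goal : d x y / 2 - max (D x) (D y) ≤ 12 * ∑ i ∈ Finset.Icc 1 m ×ˢ X.powerset,
      wt X i.2 (p i.1) * |dS d i.2 x - dS d i.2 y| := by
    by_cases hlt : max (D x) (D y) < d x y / 2
    swap
    · push Not at hlt
      have : 0 ≤ ∑ i ∈ Finset.Icc 1 m ×ˢ X.powerset,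
        wt X i.2 (p i.1) * |dS d i.2 x - dS d i.2 y| :=
        Finset.sum_nonneg fun i _ => mul_nonneg (hw i) (abs_nonneg _)
      linarith
    have key := sep_sum (Finset.Icc 1 m ×ˢ X.powerset) (fun i : ℕ × Finset V => wt X i.2 (p i.1))
      (fun i => dS d i.2 x) (fun i => dS d i.2 y) (fun i _ => hw i) (c := 1 / 12)
      (r := max (D x) (D y)) (τ := d x y / 2) hlt.le ?_
    · linarith
    intro t ht1 ht2
    -- closed balls
    obtain ⟨A, hA⟩ : ∃ A : V → Finset V, A = fun u => X.filter fun s => d u s ≤ t := ⟨_, rfl⟩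
    have hAX : ∀ u, A u ⊆ X := fun u => by rw [hA]; exact Finset.filter_subset _ _
    have hmemA : ∀ u s, s ∈ A u ↔ s ∈ X ∧ d u s ≤ t := fun u s => by rw [hA]; simp
    have hAne : ∀ u, D u ≤ t → 1 ≤ (A u).card := by
      intro u hu
      obtain ⟨s, hs, hs'⟩ := hD u
      exact Finset.card_pos.2 ⟨s, (hmemA u s).2 ⟨hs, hs'.trans hu⟩⟩
    -- the main step for an ordered pair
    have main : ∀ u v, d u v = d x y → 1 ≤ (A u).card → (A u).card ≤ (A v).card →
        ∃ j ∈ Finset.Icc 1 m, 1 / 12 ≤ ∑ S ∈ X.powerset.filter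
          (fun S => Disjoint S (A u) ∧ ¬ Disjoint S (A v)), wt X S (p j) := by
      intro u v huv h1 h2
      refine ⟨Nat.log 2 (A u).card + 1, ?_, ?_⟩
      · rw [Finset.mem_Icc, hm]
        refine ⟨Nat.le_add_left _ _, Nat.add_le_add_right ?_ 1⟩
        exact Nat.log_mono_right (Finset.card_le_card (hAX u))
      · have hdisj : Disjoint (A u) (A v) := by
          rw [Finset.disjoint_left]
          intro s hs hs'
          have h3 := ((hmemA u s).1 hs).2
          have h4 := ((hmemA v s).1 hs').2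
          have h5 := htri u s v
          rw [hsym s v, huv] at h5
          linarith
        rw [prob_avoid_hit (hAX u) (hAX v) hdisj, hp]
        refine num_bound (Nat.le_add_left _ _) ?_ ?_
        · exact Nat.lt_pow_succ_log_self (by norm_num) _
        · rw [Nat.add_sub_cancel]
          exact (Nat.pow_log_le_self 2 (by omega)).trans h2
    -- conclusion from the ordered pair
    have fin : ∀ u v, (∀ S : Finset V, min (dS d S u) (dS d S v) = min (dS d S x) (dS d S y) ∧
        max (dS d S u) (dS d S v) = max (dS d S x) (dS d S y)) → d u v = d x y →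
        1 ≤ (A u).card → (A u).card ≤ (A v).card →
        1 / 12 ≤ ∑ i ∈ Finset.Icc 1 m ×ˢ X.powerset, wt X i.2 (p i.1) *
          (if min (dS d i.2 x) (dS d i.2 y) ≤ t ∧ t < max (dS d i.2 x) (dS d i.2 y)
            then (1 : ℝ) else 0) := by
      intro u v hmm huv h1 h2
      obtain ⟨j, hj, hj'⟩ := main u v huv h1 h2
      refine hj'.trans ?_
      rw [Finset.sum_product]
      refine le_trans ?_ (Finset.single_le_sum (f := fun j => ∑ S ∈ X.powerset, wt X S (p j) *
          (if min (dS d S x) (dS d S y) ≤ t ∧ t < max (dS d S x) (dS d S y)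
            then (1 : ℝ) else 0)) (fun i _ => Finset.sum_nonneg fun S _ =>
              mul_nonneg (wt_nonneg X _ (hp0 _) (hp1 _)) (by split_ifs <;> norm_num)) hj)
      rw [Finset.sum_filter]
      refine Finset.sum_le_sum fun S hS => ?_
      split_ifs with h3 h4 h4
      · simp
      · exfalso
        apply h4
        obtain ⟨h5, h6⟩ := h3
        rw [Finset.not_disjoint_iff] at h6
        obtain ⟨s, hs, hs'⟩ := h6
        rw [← (hmm S).1, ← (hmm S).2]
        constructor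
        · exact (min_le_right _ _).trans ((dS_le hs v).trans ((hmemA v s).1 hs').2)
        · refine lt_of_lt_of_le (lt_dS ⟨s, hs⟩ fun s' hs'' => ?_) (le_max_left _ _)
          by_contra hcon
          push Not at hcon
          exact Finset.disjoint_left.1 h5 hs'' ((hmemA u s').2
            ⟨Finset.mem_powerset.1 hS hs'', hcon⟩)
      · rw [mul_one]; exact wt_nonneg X _ (hp0 _) (hp1 _)
      · simp
    have hDx : D x ≤ t := (le_max_left _ _).trans ht1
    have hDy : D y ≤ t := (le_max_right _ _).trans ht1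
    rcases le_total (A x).card (A y).card with h | h
    · exact fin x y (fun S => ⟨rfl, rfl⟩) rfl (hAne x hDx) h
    · exact fin y x (fun S => ⟨min_comm _ _, max_comm _ _⟩) (hsym y x) (hAne y hDy) h
  rw [hm, hp] at goal
  exact goal

/-- Bourgain's functions as a probability family of `1`-Lipschitz functions -/
theorem bourgain_fam (hsym : ∀ x y, d x y = d y x) (htri : ∀ x y z, d x z ≤ d x y + d y z)
    (hnn : ∀ x y, 0 ≤ d x y) (X : Finset V) (D : V → ℝ) (hD : ∀ u, ∃ x ∈ X, d u x ≤ D u) :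
    ∃ (ι : Type) (_ : Fintype ι) (w : ι → ℝ) (g : ι → V → ℝ), (∀ i, 0 ≤ w i) ∧ ∑ i, w i = 1 ∧
      (∀ i x y, |g i x - g i y| ≤ d x y) ∧
      ∀ x y, d x y / 2 - max (D x) (D y) ≤
        12 * ((Nat.log 2 X.card + 1 : ℕ) : ℝ) * ∑ i, w i * |g i x - g i y| := by
  classical
  obtain ⟨m, hm⟩ : ∃ m, m = Nat.log 2 X.card + 1 := ⟨_, rfl⟩
  have hm1 : (1 : ℝ) ≤ m := by rw [hm]; exact_mod_cast Nat.le_add_left 1 _
  have hm0 : (0 : ℝ) < m := by linarith
  have hp0 : ∀ j : ℕ, (0 : ℝ) ≤ 1 / 2 ^ j := fun j => by positivity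
  have hp1 : ∀ j : ℕ, (1 : ℝ) / 2 ^ j ≤ 1 := fun j => by
    rw [div_le_one (by positivity)]
    exact one_le_pow₀ (by norm_num)
  refine ⟨↥(Finset.Icc 1 m ×ˢ X.powerset), inferInstance,
    fun i => wt X i.1.2 (1 / 2 ^ i.1.1) / m, fun i => dS d i.1.2, fun i => ?_, ?_, fun i x y => ?_,
    fun x y => ?_⟩
  · exact div_nonneg (wt_nonneg X _ (hp0 _) (hp1 _)) hm0.le
  · rw [Finset.sum_coe_sort (Finset.Icc 1 m ×ˢ X.powerset)
      (fun i : ℕ × Finset V => wt X i.2 (1 / 2 ^ i.1) / m), ← Finset.sum_div, Finset.sum_product]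
    simp only [prob_total, Finset.sum_const, Nat.card_Icc, Nat.add_sub_cancel, nsmul_eq_mul, mul_one]
    exact div_self hm0.ne'
  · exact dS_lip htri hsym hnn _ x y
  · have h := bourgain_sum hsym htri hnn X D hD x y
    rw [← hm] at h ⊢
    rw [Finset.sum_coe_sort (Finset.Icc 1 m ×ˢ X.powerset)
      (fun i : ℕ × Finset V => wt X i.2 (1 / 2 ^ i.1) / m * |dS d i.2 x - dS d i.2 y|)]
    have e : ∑ i ∈ Finset.Icc 1 m ×ˢ X.powerset,
        wt X i.2 (1 / 2 ^ i.1) / m * |dS d i.2 x - dS d i.2 y| =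
        (∑ i ∈ Finset.Icc 1 m ×ˢ X.powerset,
          wt X i.2 (1 / 2 ^ i.1) * |dS d i.2 x - dS d i.2 y|) / m := by
      rw [Finset.sum_div]
      exact Finset.sum_congr rfl fun i _ => by ring
    rw [e, mul_assoc, mul_div_cancel₀ _ hm0.ne']
    exact h

end Bour

/-- the line property after deleting a set `X` of vertices, with an additive `O(log |X|)` -/
theorem line_apex {V : Type} [Finite V] {G : SimpleGraph V} {ℓ : Sym2 V → ℝ} {X : Set V} {D : ℝ}
    (hD : 1 ≤ D) (hc : G.Connected) (hℓ : ∀ e ∈ G.edgeSet, 0 < ℓ e) (hX : X.Nonempty)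
    (hK : ∀ u ∉ X, LineM (pathDist (G.induce (compSet G X u))
      (fun e => ℓ (e.map Subtype.val))) (1 / D)) :
    LineM (pathDist G ℓ) (1 / (48000 * (D + Real.log (X.ncard + 1)))) := by
  classical
  have hd := pathDist_isMet hc hℓ
  have hnn := hd.nonneg
  have hD0 : 0 < D := by linarith
  obtain ⟨ν, hν⟩ := exists_near hc hℓ hX
  obtain ⟨φ, hφdef⟩ : ∃ φ : V → ℝ, φ = fun x => pathDist G ℓ x (ν x) := ⟨_, rfl⟩
  have hφ0 : ∀ x, 0 ≤ φ x := fun x => by rw [hφdef]; exact hnn _ _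
  have hφX : ∀ x ∈ X, φ x = 0 := by
    intro x hx
    rw [hφdef]
    show pathDist G ℓ x (ν x) = 0
    rw [hν.self x hx, hd.self]
  have hφl : ∀ u v, G.Adj u v → |φ u - φ v| ≤ ℓ s(u, v) := by
    intro u v huv
    have e1 := hν.lip hc hℓ u v
    have e2 := hν.lip hc hℓ v u
    rw [hd.symm v u] at e2
    have e3 := pathDist_adj hℓ huv
    rw [hφdef, abs_le]
    constructor
    · show -_ ≤ pathDist G ℓ u (ν u) - pathDist G ℓ v (ν v)
      linarith
    · show pathDist G ℓ u (ν u) - pathDist G ℓ v (ν v) ≤ _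
      linarith
  have hD1 : 1 / D ≤ 1 := (div_le_one hD0).2 hD
  obtain ⟨ι1, _, w1, g1, hw1, hs1, ha1, hl1⟩ := fam_comps (cF := 1 / 2000) (c := 1 / D)
    (by norm_num) (by positivity) hD1 fan hℓ hφ0 hφX hφl hK
  have hfin : X.Finite := Set.toFinite X
  obtain ⟨ι2, _, w2, g2, hw2, hs2, ha2, hl2⟩ := bourgain_fam (d := pathDist G ℓ) hd.symm hd.tri hnn
    hfin.toFinset φ (fun u => ⟨ν u, by simpa using hν.mem u, by rw [hφdef]⟩)
  have hcard : hfin.toFinset.card = X.ncard := (Set.ncard_eq_toFinset_card X hfin).symm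
  have hn : 1 ≤ X.ncard := (Set.ncard_pos hfin).2 hX
  have hlog := log_scales hn
  rw [hcard] at hl2
  obtain ⟨m, hm⟩ : ∃ m : ℝ, m = ((Nat.log 2 X.ncard + 1 : ℕ) : ℝ) := ⟨_, rfl⟩
  rw [← hm] at hl2 hlog
  have hm1 : 1 ≤ m := by rw [hm]; exact_mod_cast Nat.le_add_left 1 _
  have hm0 : 0 < m := by linarith
  have hDm : 0 < D + m := by linarith
  have hL0 : 0 ≤ Real.log (X.ncard + 1) := Real.log_nonneg (by
    have : (0 : ℝ) ≤ X.ncard := Nat.cast_nonneg _
    linarith)
  -- the target constant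
  have hconst : 1 / (48000 * (D + Real.log (X.ncard + 1))) ≤ 1 / (16000 * (D + m)) := by
    apply one_div_le_one_div_of_le (by positivity)
    linarith
  refine LineM.mono (c := 1 / (16000 * (D + m))) ?_ hconst hnn
  refine ⟨ι1 ⊕ ι2, inferInstance, Sum.elim (fun i => D / (D + m) * w1 i)
    (fun i => m / (D + m) * w2 i), Sum.elim g1 g2, ?_, ?_, ?_, ?_⟩
  · rintro (i | i)
    · exact mul_nonneg (by positivity) (hw1 i)
    · exact mul_nonneg (by positivity) (hw2 i)
  · rw [Fintype.sum_sum_type]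
    simp only [Sum.elim_inl, Sum.elim_inr]
    rw [← Finset.mul_sum, ← Finset.mul_sum, hs1, hs2, mul_one, mul_one, ← add_div]
    exact div_self hDm.ne'
  · rintro (i | i)
    · intro x y
      exact pathDist_gen hc (ha1 i).2 x y
    · exact ha2 i
  · intro x y
    have hsum : ∑ i, (Sum.elim (fun i => D / (D + m) * w1 i)
        (fun i => m / (D + m) * w2 i) : ι1 ⊕ ι2 → ℝ) i *
        |(Sum.elim g1 g2 : ι1 ⊕ ι2 → V → ℝ) i x - (Sum.elim g1 g2 : ι1 ⊕ ι2 → V → ℝ) i y| =
        D / (D + m) * (∑ i, w1 i * |g1 i x - g1 i y|) +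
        m / (D + m) * (∑ i, w2 i * |g2 i x - g2 i y|) := by
      rw [Fintype.sum_sum_type, Finset.mul_sum, Finset.mul_sum]
      simp only [Sum.elim_inl, Sum.elim_inr, mul_assoc]
    rw [hsum]
    obtain ⟨M, hMdef⟩ : ∃ M, M = pathDist G ℓ x y := ⟨_, rfl⟩
    have hM : 0 ≤ M := by rw [hMdef]; exact hnn x y
    obtain ⟨S1, hS1⟩ : ∃ S1, S1 = ∑ i, w1 i * |g1 i x - g1 i y| := ⟨_, rfl⟩
    obtain ⟨S2, hS2⟩ : ∃ S2, S2 = ∑ i, w2 i * |g2 i x - g2 i y| := ⟨_, rfl⟩
    have n1 : 0 ≤ S1 := by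
      rw [hS1]; exact Finset.sum_nonneg fun i _ => mul_nonneg (hw1 i) (abs_nonneg _)
    have n2 : 0 ≤ S2 := by
      rw [hS2]; exact Finset.sum_nonneg fun i _ => mul_nonneg (hw2 i) (abs_nonneg _)
    rw [← hS1, ← hS2, ← hMdef]
    have hgoal : M / 16000 ≤ D * S1 + m * S2 → 1 / (16000 * (D + m)) * M ≤
        D / (D + m) * S1 + m / (D + m) * S2 := by
      intro h
      have e1 : 1 / (16000 * (D + m)) * M = (M / 16000) / (D + m) := by field_simp
      have e2 : D / (D + m) * S1 + m / (D + m) * S2 = (D * S1 + m * S2) / (D + m) := by ring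
      rw [e1, e2]
      exact div_le_div_of_nonneg_right h hDm.le
    apply hgoal
    have hf : ∀ u v, G.Adj u v → |pathDist G ℓ u y - pathDist G ℓ v y| ≤ ℓ s(u, v) := by
      intro u v huv
      have e1 := hd.tri u v y
      have e2 := hd.tri v u y
      rw [hd.symm v u] at e2
      have e3 := pathDist_adj hℓ huv
      rw [abs_le]
      constructor <;> linarith
    by_cases hcase : M / 8 ≤ φ x + φ y
    · have h5 := hl1 _ (adm_clamp (G := G) (ρ := fun u v => ℓ s(u, v)) (φ := φ)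
        (f := fun v => pathDist G ℓ v y) hφ0 hφl hf (pathDist G ℓ y y + min M (φ y))) x y
      beta_reduce at h5
      rw [clamp_diff (X := pathDist G ℓ x y) (Y := pathDist G ℓ y y) hM (hφ0 x) (hφ0 y)
        (by rw [hd.self, sub_zero]; exact hMdef.symm) rfl, ← hS1] at h5
      have h7 : 0 ≤ min M (φ x + φ y) := le_min hM (add_nonneg (hφ0 x) (hφ0 y))
      rw [abs_of_nonneg h7] at h5
      have h6 : M / 8 ≤ min M (φ x + φ y) := le_min (by linarith) hcase
      have h8 : 1 / 2000 * (1 / D) * (M / 8) ≤ S1 :=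
        (mul_le_mul_of_nonneg_left h6 (by positivity)).trans h5
      have h9 : D * (1 / 2000 * (1 / D) * (M / 8)) ≤ D * S1 := mul_le_mul_of_nonneg_left h8 hD0.le
      have e : D * (1 / 2000 * (1 / D) * (M / 8)) = M / 16000 := by field_simp; ring
      rw [e] at h9
      have h10 : 0 ≤ m * S2 := mul_nonneg hm0.le n2
      linarith
    · push Not at hcase
      have h5 := hl2 x y
      rw [← hS2, ← hMdef] at h5
      have h6 : max (φ x) (φ y) ≤ φ x + φ y :=
        max_le (by linarith [hφ0 y]) (by linarith [hφ0 x])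
      have h7 : 0 ≤ D * S1 := mul_nonneg hD0.le n1
      nlinarith

end Vale.Agent.P235.H873
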