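import Mathlib
import Vale.Agent.P235.Comp.Core

/-!
Bourgain's embedding for a set of centres, and the additive bound for `c₁` after deleting a set of
vertices.
-/

set_option linter.all false
set_option autoImplicit false

open Finset MeasureTheory

namespace Vale.Agent.P235.H873

open Vale.Agent.P235

/-! ### probability part -/

/-- weight of the random subset `S` of `X`, every point being taken with probability `p` -/
noncomputable def wt {V : Type} (X S : Finset V) (p : ℝ) : ℝ :=
  p ^ S.card * (1 - p) ^ (X.card - S.card)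

theorem wt_nonneg {V : Type} (X S : Finset V) {p : ℝ} (h0 : 0 ≤ p) (h1 : p ≤ 1) : 0 ≤ wt X S p :=
  mul_nonneg (pow_nonneg h0 _) (pow_nonneg (by linarith) _)

/-- probability that `A` is avoided -/
theorem prob_avoid {V : Type} [DecidableEq V] {X A : Finset V} (hA : A ⊆ X) (p : ℝ) :
    ∑ S ∈ (X \ A).powerset, wt X S p = (1 - p) ^ A.card := by
  have h1 := Finset.sum_pow_mul_eq_add_pow p (1 - p) (X \ A)
  have h2 : ∀ S ∈ (X \ A).powerset, wt X S p =
      (1 - p) ^ A.card * (p ^ S.card * (1 - p) ^ ((X \ A).card - S.card)) := by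
    intro S hS
    rw [Finset.mem_powerset] at hS
    have h3 := Finset.card_le_card hS
    have h4 := Finset.card_sdiff_add_card_eq_card hA
    unfold wt
    have h5 : X.card - S.card = A.card + ((X \ A).card - S.card) := by omega
    rw [h5, pow_add]
    ring
  rw [Finset.sum_congr rfl h2, ← Finset.mul_sum, h1]
  simp

theorem prob_total {V : Type} [DecidableEq V] (X : Finset V) (p : ℝ) :
    ∑ S ∈ X.powerset, wt X S p = 1 := by
  have := prob_avoid (Finset.empty_subset X) p
  simpa using this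

/-- probability that `A` is avoided and `B` is hit -/
theorem prob_avoid_hit {V : Type} [DecidableEq V] {X A B : Finset V} (hA : A ⊆ X) (hB : B ⊆ X)
    (hAB : Disjoint A B) (p : ℝ) :
    ∑ S ∈ X.powerset.filter (fun S => Disjoint S A ∧ ¬ Disjoint S B), wt X S p =
      (1 - p) ^ A.card * (1 - (1 - p) ^ B.card) := by
  have h1 := prob_avoid hA p
  have h2 := prob_avoid (Finset.union_subset hA hB) p
  have h3 : X.powerset.filter (fun S => Disjoint S A ∧ ¬ Disjoint S B) =
      (X \ A).powerset \ (X \ (A ∪ B)).powerset := by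
    ext S
    simp only [Finset.mem_filter, Finset.mem_powerset, Finset.mem_sdiff]
    constructor
    · rintro ⟨hS, hSA, hSB⟩
      refine ⟨?_, fun h => hSB ?_⟩
      · rw [Finset.subset_sdiff]; exact ⟨hS, hSA⟩
      · rw [Finset.subset_sdiff] at h
        exact h.2.mono_right Finset.subset_union_right
    · rintro ⟨h, h'⟩
      rw [Finset.subset_sdiff] at h
      refine ⟨h.1, h.2, fun h4 => h' ?_⟩
      rw [Finset.subset_sdiff]
      exact ⟨h.1, Finset.disjoint_union_right.2 ⟨h.2, h4⟩⟩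
  have hsub : (X \ (A ∪ B)).powerset ⊆ (X \ A).powerset :=
    Finset.powerset_mono.2 (Finset.sdiff_subset_sdiff le_rfl Finset.subset_union_left)
  have h4 := Finset.sum_sdiff hsub (f := fun S => wt X S p)
  rw [h3]
  rw [h1, h2, Finset.card_union_of_disjoint hAB, pow_add] at h4
  linarith

/-- the numerical bound -/
theorem num_bound {j a c : ℕ} (hj : 1 ≤ j) (ha : a < 2 ^ j) (hc : 2 ^ (j - 1) ≤ c) :
    (1 : ℝ) / 12 ≤ (1 - 1 / 2 ^ j) ^ a * (1 - (1 - 1 / 2 ^ j) ^ c) := by
  obtain ⟨q, hq⟩ : ∃ q : ℝ, q = 1 - 1 / 2 ^ j := ⟨_, rfl⟩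
  rw [← hq]
  have hp : (1 : ℝ) / 2 ^ j ≤ 1 / 2 := by
    apply one_div_le_one_div_of_le (by norm_num)
    calc (2 : ℝ) = 2 ^ 1 := by norm_num
      _ ≤ 2 ^ j := pow_le_pow_right₀ (by norm_num) hj
  have hp0 : (0 : ℝ) < 1 / 2 ^ j := by positivity
  have hq0 : 0 < q := by rw [hq]; linarith
  have hq1 : q ≤ 1 := by rw [hq]; linarith
  have h2j : (2 : ℝ) ^ j = 2 * 2 ^ (j - 1) := by
    rw [← pow_succ']; congr 1; omega
  -- lower bound
  have hhalf : (1 : ℝ) / 2 ≤ q ^ (2 ^ (j - 1)) := by
    have h1 := one_add_mul_le_pow (a := -(1 / 2 ^ j : ℝ)) (by linarith) (2 ^ (j - 1))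
    have h2 : 1 + ((2 ^ (j - 1) : ℕ) : ℝ) * -(1 / 2 ^ j : ℝ) = 1 / 2 := by
      push_cast
      rw [h2j]
      field_simp
      ring
    rw [h2] at h1
    have h3 : 1 + -(1 / 2 ^ j : ℝ) = q := by rw [hq]; ring
    rwa [h3] at h1
  have hlow : (1 : ℝ) / 4 ≤ q ^ a := by
    have h1 : q ^ (2 ^ j) ≤ q ^ a := pow_le_pow_of_le_one hq0.le hq1 ha.le
    have h2 : (2 : ℕ) ^ j = 2 ^ (j - 1) + 2 ^ (j - 1) := by
      rw [← two_mul, ← pow_succ']; congr 1; omega
    rw [h2, pow_add] at h1
    nlinarith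
  -- upper bound
  have hup : q ^ c ≤ 2 / 3 := by
    have h1 : q ^ c ≤ q ^ (2 ^ (j - 1)) := pow_le_pow_of_le_one hq0.le hq1 hc
    have h2 : q ≤ Real.exp (-(1 / 2 ^ j)) := by
      have := Real.add_one_le_exp (-(1 / 2 ^ j : ℝ))
      rw [hq]; linarith
    have h3 : q ^ (2 ^ (j - 1)) ≤ Real.exp (-(1 / 2 ^ j)) ^ (2 ^ (j - 1)) :=
      pow_le_pow_left₀ hq0.le h2 _
    have h4 : Real.exp (-(1 / 2 ^ j)) ^ (2 ^ (j - 1)) = Real.exp (-(1 / 2)) := by
      rw [← Real.exp_nat_mul]
      congr 1
      push_cast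
      rw [h2j]
      field_simp
    have h5 : Real.exp (-(1 / 2)) ≤ 2 / 3 := by
      rw [Real.exp_neg]
      have := Real.add_one_le_exp (1 / 2 : ℝ)
      rw [inv_le_comm₀ (Real.exp_pos _) (by norm_num)]
      linarith
    rw [h4] at h3
    linarith
  nlinarith

/-! ### separation of two numbers -/

/-- if the weighted number of pairs separated by `t` is at least `c` for all `t` between `r` and
`τ`, then the weighted sum of the distances is at least `c (τ - r)` -/
theorem sep_sum {ι : Type} (s : Finset ι) (w a b : ι → ℝ) (hw : ∀ i ∈ s, 0 ≤ w i) {c r τ : ℝ}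
    (hrt : r ≤ τ)
    (h : ∀ t, r ≤ t → t < τ → c ≤ ∑ i ∈ s, w i * (if min (a i) (b i) ≤ t ∧ t < max (a i) (b i)
      then 1 else 0)) : c * (τ - r) ≤ ∑ i ∈ s, w i * |a i - b i| := by
  classical
  have hI : ∀ i, IntegrableOn (fun t : ℝ => (if min (a i) (b i) ≤ t ∧ t < max (a i) (b i)
      then (1 : ℝ) else 0)) (Set.Ico r τ) := by
    intro i
    have e : (fun t : ℝ => (if min (a i) (b i) ≤ t ∧ t < max (a i) (b i) then (1 : ℝ) else 0)) =
        Set.indicator (Set.Ico (min (a i) (b i)) (max (a i) (b i))) (fun _ => 1) := by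
      ext t
      simp [Set.indicator_apply]
    rw [e]
    exact (integrableOn_const (by simp)).indicator measurableSet_Ico
  have hle : ∀ i, ∫ t in Set.Ico r τ, (if min (a i) (b i) ≤ t ∧ t < max (a i) (b i)
      then (1 : ℝ) else 0) ≤ |a i - b i| := by
    intro i
    have e : (fun t : ℝ => (if min (a i) (b i) ≤ t ∧ t < max (a i) (b i) then (1 : ℝ) else 0)) =
        Set.indicator (Set.Ico (min (a i) (b i)) (max (a i) (b i))) (fun _ => 1) := by
      ext t
      simp [Set.indicator_apply]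
    rw [e, setIntegral_indicator measurableSet_Ico, setIntegral_const, smul_eq_mul, mul_one]
    have h1 : volume.real (Set.Ico r τ ∩ Set.Ico (min (a i) (b i)) (max (a i) (b i))) ≤
        volume.real (Set.Ico (min (a i) (b i)) (max (a i) (b i))) :=
      measureReal_mono Set.inter_subset_right (by simp)
    refine h1.trans ?_
    rw [Real.volume_real_Ico_of_le min_le_max, max_sub_min_eq_abs]
    rw [abs_sub_comm]
  have h1 : ∫ t in Set.Ico r τ, c ≤ ∫ t in Set.Ico r τ, ∑ i ∈ s, w i *
      (if min (a i) (b i) ≤ t ∧ t < max (a i) (b i) then (1 : ℝ) else 0) := by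
    refine setIntegral_mono_on (integrableOn_const (by simp))
      (integrable_finset_sum _ fun i _ => (hI i).const_mul (w i)) measurableSet_Ico fun t ht => ?_
    exact h t ht.1 ht.2
  rw [setIntegral_const, integral_finset_sum _ fun i _ => (hI i).const_mul (w i)] at h1
  rw [Real.volume_real_Ico_of_le hrt, smul_eq_mul] at h1
  refine le_trans (by linarith) (h1.trans (Finset.sum_le_sum fun i hi => ?_))
  rw [integral_const_mul]
  exact mul_le_mul_of_nonneg_left (hle i) (hw i hi)

/-! ### Bourgain's embedding -/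

section Bour

variable {V : Type} [Finite V] {d : V → V → ℝ}

/-- distance to the finite set `S` -/
noncomputable def dS (d : V → V → ℝ) (S : Finset V) (u : V) : ℝ := by
  classical
  exact if h : S.Nonempty then S.inf' h (fun s => d u s) else 0

theorem dS_lip (htri : ∀ x y z, d x z ≤ d x y + d y z) (hsym : ∀ x y, d x y = d y x)
    (hnn : ∀ x y, 0 ≤ d x y) (S : Finset V) (u v : V) : |dS d S u - dS d S v| ≤ d u v := by
  classical
  have key : ∀ u v, dS d S u ≤ d u v + dS d S v := by
    intro u v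
    unfold dS
    by_cases h : S.Nonempty
    · rw [dif_pos h, dif_pos h]
      obtain ⟨s, hs, hs'⟩ := Finset.exists_mem_eq_inf' h (fun s => d v s)
      rw [hs']
      exact (Finset.inf'_le _ hs).trans (htri u v s)
    · rw [dif_neg h, dif_neg h]
      linarith [hnn u v]
  rw [abs_le]
  constructor
  · have := key v u
    rw [hsym v u] at this
    linarith
  · have := key u v
    linarith

theorem dS_le {S : Finset V} {s : V} (hs : s ∈ S) (u : V) : dS d S u ≤ d u s := by
  classical
  unfold dS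
  rw [dif_pos ⟨s, hs⟩]
  exact Finset.inf'_le _ hs

theorem lt_dS {S : Finset V} (h : S.Nonempty) {u : V} {t : ℝ} (ht : ∀ s ∈ S, t < d u s) :
    t < dS d S u := by
  classical
  unfold dS
  rw [dif_pos h, Finset.lt_inf'_iff]
  exact ht

/-- Bourgain's theorem for distances to subsets of `X` -/
theorem bourgain (hsym : ∀ x y, d x y = d y x) (htri : ∀ x y z, d x z ≤ d x y + d y z)
    (hnn : ∀ x y, 0 ≤ d x y) (X : Finset V) (D : V → ℝ) (hD : ∀ u, ∃ x ∈ X, d u x ≤ D u) :
    ∃ β : V → V → ℝ, IsL1 β ∧ (∀ x y, β x y ≤ (Nat.log 2 X.card + 1 : ℕ) * d x y) ∧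
      ∀ x y, d x y / 2 - max (D x) (D y) ≤ 12 * β x y := by
  classical
  obtain ⟨m, hm⟩ : ∃ m, m = Nat.log 2 X.card + 1 := ⟨_, rfl⟩
  obtain ⟨p, hp⟩ : ∃ p : ℕ → ℝ, p = fun j => 1 / 2 ^ j := ⟨_, rfl⟩
  have hp0 : ∀ j, 0 ≤ p j := fun j => by rw [hp]; positivity
  have hp1 : ∀ j, p j ≤ 1 := fun j => by
    rw [hp]
    show (1 : ℝ) / 2 ^ j ≤ 1
    rw [div_le_one (by positivity)]
    exact one_le_pow₀ (by norm_num)
  have hw : ∀ i : ℕ × Finset V, 0 ≤ wt X i.2 (p i.1) := fun i => wt_nonneg X _ (hp0 _) (hp1 _)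
  refine ⟨fun x y => ∑ i ∈ Finset.Icc 1 m ×ˢ X.powerset,
    wt X i.2 (p i.1) * |dS d i.2 x - dS d i.2 y|, ?_, ?_, ?_⟩
  · exact IsL1.sum _ (fun (i : ℕ × Finset V) x y => wt X i.2 (p i.1) * |dS d i.2 x - dS d i.2 y|)
      fun i _ => (isL1_line (dS d i.2)).smul (hw i)
  · intro x y
    have h1 : ∑ i ∈ Finset.Icc 1 m ×ˢ X.powerset,
        wt X i.2 (p i.1) * |dS d i.2 x - dS d i.2 y| ≤
        ∑ i ∈ Finset.Icc 1 m ×ˢ X.powerset, wt X i.2 (p i.1) * d x y :=
      Finset.sum_le_sum fun i _ =>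
        mul_le_mul_of_nonneg_left (dS_lip htri hsym hnn _ x y) (hw i)
    refine h1.trans (le_of_eq ?_)
    rw [← Finset.sum_mul, Finset.sum_product]
    simp only [prob_total, Finset.sum_const, Nat.card_Icc, Nat.add_sub_cancel, nsmul_eq_mul, mul_one]
    rw [hm]
  · intro x y
    by_cases hlt : max (D x) (D y) < d x y / 2
    swap
    · push Not at hlt
      have : 0 ≤ ∑ i ∈ Finset.Icc 1 m ×ˢ X.powerset,
        wt X i.2 (p i.1) * |dS d i.2 x - dS d i.2 y| :=
        Finset.sum_nonneg fun i _ => mul_nonneg (hw i) (abs_nonneg _)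
      linarith
    have key := sep_sum (Finset.Icc 1 m ×ˢ X.powerset) (fun i : ℕ × Finset V => wt X i.2 (p i.1))
      (fun i => dS d i.2 x) (fun i => dS d i.2 y) (fun i _ => hw i) (c := 1 / 12)
      (r := max (D x) (D y)) (τ := d x y / 2) hlt.le ?_
    · linarith
    intro t ht1 ht2
    -- closed balls
    obtain ⟨A, hA⟩ : ∃ A : V → Finset V, A = fun u => X.filter fun s => d u s ≤ t := ⟨_, rfl⟩
    have hAX : ∀ u, A u ⊆ X := fun u => by rw [hA]; exact Finset.filter_subset _ _
    have hmemA : ∀ u s, s ∈ A u ↔ s ∈ X ∧ d u s ≤ t := fun u s => by rw [hA]; simp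
    have hAne : ∀ u, D u ≤ t → 1 ≤ (A u).card := by
      intro u hu
      obtain ⟨s, hs, hs'⟩ := hD u
      exact Finset.card_pos.2 ⟨s, (hmemA u s).2 ⟨hs, hs'.trans hu⟩⟩
    -- the main step for an ordered pair
    have main : ∀ u v, d u v = d x y → 1 ≤ (A u).card → (A u).card ≤ (A v).card →
        ∃ j ∈ Finset.Icc 1 m, 1 / 12 ≤ ∑ S ∈ X.powerset.filter
          (fun S => Disjoint S (A u) ∧ ¬ Disjoint S (A v)), wt X S (p j) := by
      intro u v huv h1 h2
      refine ⟨Nat.log 2 (A u).card + 1, ?_, ?_⟩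
      · rw [Finset.mem_Icc, hm]
        refine ⟨Nat.le_add_left _ _, Nat.add_le_add_right ?_ 1⟩
        exact Nat.log_mono_right (Finset.card_le_card (hAX u))
      · have hdisj : Disjoint (A u) (A v) := by
          rw [Finset.disjoint_left]
          intro s hs hs'
          have h3 := ((hmemA u s).1 hs).2
          have h4 := ((hmemA v s).1 hs').2
          have h5 := htri u s v
          rw [hsym s v, huv] at h5
          linarith
        rw [prob_avoid_hit (hAX u) (hAX v) hdisj, hp]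
        refine num_bound (Nat.le_add_left _ _) ?_ ?_
        · exact Nat.lt_pow_succ_log_self (by norm_num) _
        · rw [Nat.add_sub_cancel]
          exact (Nat.pow_log_le_self 2 (by omega)).trans h2
    -- conclusion from the ordered pair
    have fin : ∀ u v, (∀ S : Finset V, min (dS d S u) (dS d S v) = min (dS d S x) (dS d S y) ∧
        max (dS d S u) (dS d S v) = max (dS d S x) (dS d S y)) → d u v = d x y →
        1 ≤ (A u).card → (A u).card ≤ (A v).card →
        1 / 12 ≤ ∑ i ∈ Finset.Icc 1 m ×ˢ X.powerset, wt X i.2 (p i.1) *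
          (if min (dS d i.2 x) (dS d i.2 y) ≤ t ∧ t < max (dS d i.2 x) (dS d i.2 y)
            then (1 : ℝ) else 0) := by
      intro u v hmm huv h1 h2
      obtain ⟨j, hj, hj'⟩ := main u v huv h1 h2
      refine hj'.trans ?_
      rw [Finset.sum_product]
      refine le_trans ?_ (Finset.single_le_sum (f := fun j => ∑ S ∈ X.powerset, wt X S (p j) *
          (if min (dS d S x) (dS d S y) ≤ t ∧ t < max (dS d S x) (dS d S y)
            then (1 : ℝ) else 0)) (fun i _ => Finset.sum_nonneg fun S _ =>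
              mul_nonneg (wt_nonneg X _ (hp0 _) (hp1 _)) (by split_ifs <;> norm_num)) hj)
      rw [Finset.sum_filter]
      refine Finset.sum_le_sum fun S hS => ?_
      split_ifs with h3 h4 h4
      · simp
      · exfalso
        apply h4
        obtain ⟨h5, h6⟩ := h3
        rw [Finset.not_disjoint_iff] at h6
        obtain ⟨s, hs, hs'⟩ := h6
        rw [← (hmm S).1, ← (hmm S).2]
        constructor
        · exact (min_le_right _ _).trans ((dS_le hs v).trans ((hmemA v s).1 hs').2)
        · refine lt_of_lt_of_le (lt_dS ⟨s, hs⟩ fun s' hs'' => ?_) (le_max_left _ _)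
          by_contra hcon
          push Not at hcon
          exact Finset.disjoint_left.1 h5 hs'' ((hmemA u s').2
            ⟨Finset.mem_powerset.1 hS hs'', hcon⟩)
      · rw [mul_one]; exact wt_nonneg X _ (hp0 _) (hp1 _)
      · simp
    have hDx : D x ≤ t := (le_max_left _ _).trans ht1
    have hDy : D y ≤ t := (le_max_right _ _).trans ht1
    rcases le_total (A x).card (A y).card with h | h
    · exact fin x y (fun S => ⟨rfl, rfl⟩) rfl (hAne x hDx) h
    · exact fin y x (fun S => ⟨min_comm _ _, max_comm _ _⟩) (hsym y x) (hAne y hDy) h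

end Bour

/-- the numerical estimate of the number of scales -/
theorem log_scales {n : ℕ} (hn : 1 ≤ n) : ((Nat.log 2 n + 1 : ℕ) : ℝ) ≤ 3 * Real.log (n + 1) := by
  have hn' : (1 : ℝ) ≤ n := by exact_mod_cast hn
  have hl2 : (0.69 : ℝ) < Real.log 2 := by linarith [Real.log_two_gt_d9]
  have h1 : ((Nat.log 2 n : ℕ) : ℝ) * Real.log 2 ≤ Real.log n := by
    have h2 : ((2 ^ Nat.log 2 n : ℕ) : ℝ) ≤ n := by
      exact_mod_cast Nat.pow_log_le_self 2 (by omega)
    have h3 := Real.log_le_log (by positivity) h2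
    push_cast at h3
    rwa [Real.log_pow] at h3
  have h2 : Real.log n ≤ Real.log (n + 1) := Real.log_le_log (by linarith) (by linarith)
  have h3 : Real.log 2 ≤ Real.log (n + 1) := Real.log_le_log (by norm_num) (by linarith)
  push_cast
  have h4 : ((Nat.log 2 n : ℕ) : ℝ) ≤ 1.5 * Real.log (n + 1) := by
    nlinarith [Nat.cast_nonneg (α := ℝ) (Nat.log 2 n)]
  nlinarith

/-- deleting a set `X` of vertices changes `c₁` at most by an additive `O(log |X|)` -/
theorem apex_log : ∃ C : ℝ, ∀ K : ℝ, 0 ≤ K → ∀ (V : Type) [Finite V] (G : SimpleGraph V),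
    G.Connected → ∀ X : Set V, X.Nonempty →
    (∀ u ∉ X, DistortionLE (G.induce (compSet G X u)) K) →
    DistortionLE G (C * (K + Real.log (X.ncard + 1))) := by
  classical
  refine ⟨1000, fun K hK V _ G hc X hX hcomp ℓ hℓ => ?_⟩
  have hd := pathDist_isMet hc hℓ
  have hnn := hd.nonneg
  obtain ⟨ν, hν⟩ := exists_near hc hℓ hX
  have hfin : X.Finite := Set.toFinite X
  obtain ⟨ρ, hρI, hρu, hρl⟩ := comps_embed (C := K + 1 / 100) (by linarith) hc hℓ hν
    (fun u hu => (hcomp u hu).mono (by linarith))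
  obtain ⟨β, hβI, hβu, hβl⟩ := bourgain (d := pathDist G ℓ) hd.symm hd.tri hnn hfin.toFinset
    (fun u => pathDist G ℓ u (ν u)) (fun u => ⟨ν u, by simpa using hν.mem u, le_rfl⟩)
  have hcard : hfin.toFinset.card = X.ncard := (Set.ncard_eq_toFinset_card X hfin).symm
  have hn : 1 ≤ X.ncard := (Set.ncard_pos hfin).2 hX
  have hlog := log_scales hn
  rw [hcard] at hβu
  have hL : (0.69 : ℝ) ≤ Real.log (X.ncard + 1) := by
    have h1 : (1 : ℝ) ≤ X.ncard := by exact_mod_cast hn
    have h3 : Real.log 2 ≤ Real.log (X.ncard + 1) := Real.log_le_log (by norm_num) (by linarith)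
    linarith [Real.log_two_gt_d9]
  refine ((hρI.smul (by norm_num : (0 : ℝ) ≤ 4)).add (hβI.smul (by norm_num : (0 : ℝ) ≤ 48))).embeds
    (fun x y => ?_) (fun x y => ?_)
  · show pathDist G ℓ x y ≤ 4 * ρ x y + 48 * β x y
    have h1 := hρl x y
    have h2 := hβl x y
    have h3 := hρI.nonneg x y
    have h4 := hβI.nonneg x y
    have h5 : max (pathDist G ℓ x (ν x)) (pathDist G ℓ y (ν y)) ≤
        pathDist G ℓ x (ν x) + pathDist G ℓ y (ν y) :=
      max_le (by linarith [hnn y (ν y)]) (by linarith [hnn x (ν x)])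
    rcases min_le_iff.1 h1 with h | h
    · linarith [hnn x y]
    · by_cases h6 : pathDist G ℓ x y ≤ 4 * (pathDist G ℓ x (ν x) + pathDist G ℓ y (ν y))
      · linarith
      · push Not at h6
        linarith
  · show 4 * ρ x y + 48 * β x y ≤ 1000 * (K + Real.log (X.ncard + 1)) * pathDist G ℓ x y
    have h1 := hρu x y
    have h2 := hβu x y
    have h3 : ((Nat.log 2 X.ncard + 1 : ℕ) : ℝ) * pathDist G ℓ x y ≤
        3 * Real.log (X.ncard + 1) * pathDist G ℓ x y :=
      mul_le_mul_of_nonneg_right hlog (hnn x y)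
    have h4 : 4 * (96 * (K + 1 / 100) + 112) + 48 * (3 * Real.log (X.ncard + 1)) ≤
        1000 * (K + Real.log (X.ncard + 1)) := by
      linarith
    have h5 := mul_le_mul_of_nonneg_right h4 (hnn x y)
    linarith

end Vale.Agent.P235.H873
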