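import Vale.Agent.P235.H206.TDDefs
import Vale.Agent.P235.H206.Defs
import Vale.Agent.P235.H105.Sum
import Vale.Agent.P235.Comp.Final

/-!
Graphs with a tree decomposition all of whose tree edges are free are edge sums of graphs of
treewidth at most `3` and small graphs.
-/

set_option linter.all false
set_option autoImplicit false

namespace Vale.Agent.P235.H873

open Vale.Agent.P235

/-- the graph in which two vertices are adjacent if they share a bag -/
def gm {ι V : Type} (B : ι → Set V) : SimpleGraph V where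
  Adj u v := u ≠ v ∧ ∃ t, u ∈ B t ∧ v ∈ B t
  symm := ⟨fun u v h => ⟨h.1.symm, h.2.imp fun t ht => ⟨ht.2, ht.1⟩⟩⟩
  loopless := ⟨fun u h => h.1 rfl⟩

theorem gm_adj {ι V : Type} {B : ι → Set V} {u v : V} :
    (gm B).Adj u v ↔ u ≠ v ∧ ∃ t, u ∈ B t ∧ v ∈ B t := Iff.rfl

/-- decomposition with free edges only -/
structure FD (k : ℕ) {ι V : Type} (T : SimpleGraph ι) (B : ι → Set V) : Prop where
  cov : ∀ v, ∃ t, v ∈ B t
  con : ∀ v, (T.induce {t | v ∈ B t}).Preconnected
  card : ∀ t, (B t).ncard ≤ k + 1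
  free : ∀ a b, T.Adj a b → (B a ∩ B b).ncard ≤ 2 ∨ ((B a).ncard ≤ 4 ∧ (B b).ncard ≤ 4)

/-- one side `R` of a tree edge `r r'` -/
structure IsSide {ι : Type} (T : SimpleGraph ι) (R : Set ι) (r r' : ι) : Prop where
  mem : r ∈ R
  notMem : r' ∉ R
  cross : ∀ x ∈ R, ∀ y, y ∉ R → T.Adj x y → x = r ∧ y = r'

theorem IsSide.compl {ι : Type} {T : SimpleGraph ι} {R : Set ι} {r r' : ι} (h : IsSide T R r r') :
    IsSide T Rᶜ r' r :=
  ⟨h.notMem, fun hr => hr h.mem, fun x hx y hy hxy =>
    have h1 := h.cross y (by simpa using hy) x hx hxy.symm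
    ⟨h1.2, h1.1⟩⟩

theorem IsSide.both {ι : Type} {T : SimpleGraph ι} {R : Set ι} {r r' : ι} (h : IsSide T R r r')
    {S : Set ι} (hS : (T.induce S).Preconnected) {x y : ι} (hx : x ∈ S) (hxR : x ∈ R)
    (hy : y ∈ S) (hyR : y ∉ R) : r ∈ S ∧ r' ∈ S := by
  obtain ⟨w⟩ := hS ⟨x, hx⟩ ⟨y, hy⟩
  obtain ⟨d, -, h1, h2⟩ := w.exists_boundary_dart {z : S | (z : ι) ∈ R} hxR hyR
  have h3 := h.cross _ h1 _ h2 d.adj
  rw [← h3.1, ← h3.2]
  exact ⟨d.fst.2, d.snd.2⟩

theorem IsSide.inter {ι : Type} {T : SimpleGraph ι} {R : Set ι} {r r' : ι} (h : IsSide T R r r')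
    {S : Set ι} (hS : (T.induce S).Preconnected) : (T.induce (S ∩ R)).Preconnected := by
  classical
  by_cases hsub : S ⊆ R
  · rw [Set.inter_eq_left.2 hsub]
    exact hS
  rintro ⟨x, hx⟩ ⟨y, hy⟩
  obtain ⟨z, hz, hzR⟩ := Set.not_subset.1 hsub
  obtain ⟨hr, hr'⟩ := h.both hS hx.1 hx.2 hz hzR
  let ρ : S → ↥(S ∩ R) := fun t => if ht : (t : ι) ∈ R then ⟨t, t.2, ht⟩ else ⟨r, hr, h.mem⟩
  have key : ∀ (u v : S), (T.induce S).Walk u v → (T.induce (S ∩ R)).Reachable (ρ u) (ρ v) := by
    intro u v w
    induction w with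
    | nil => exact SimpleGraph.Reachable.refl _
    | @cons u v w hadj p ih =>
      refine SimpleGraph.Reachable.trans ?_ ih
      have hadj' : T.Adj (u : ι) (v : ι) := hadj
      by_cases hu : (u : ι) ∈ R
      · by_cases hv : (v : ι) ∈ R
        · have e1 : ρ u = ⟨u, u.2, hu⟩ := dif_pos hu
          have e2 : ρ v = ⟨v, v.2, hv⟩ := dif_pos hv
          rw [e1, e2]
          exact SimpleGraph.Adj.reachable hadj'
        · have e1 : ρ u = ⟨u, u.2, hu⟩ := dif_pos hu
          have e2 : ρ v = ⟨r, hr, h.mem⟩ := dif_neg hv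
          have h3 := h.cross _ hu _ hv hadj'
          have e3 : ρ u = ρ v := by rw [e1, e2]; exact Subtype.ext h3.1
          rw [e3]
      · by_cases hv : (v : ι) ∈ R
        · have e1 : ρ u = ⟨r, hr, h.mem⟩ := dif_neg hu
          have e2 : ρ v = ⟨v, v.2, hv⟩ := dif_pos hv
          have h3 := h.cross _ hv _ hu hadj'.symm
          have e3 : ρ u = ρ v := by rw [e1, e2]; exact Subtype.ext h3.1.symm
          rw [e3]
        · have e1 : ρ u = ⟨r, hr, h.mem⟩ := dif_neg hu
          have e2 : ρ v = ⟨r, hr, h.mem⟩ := dif_neg hv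
          rw [e1, e2]
  obtain ⟨w⟩ := hS ⟨x, hx.1⟩ ⟨y, hy.1⟩
  have := key _ _ w
  have e1 : ρ ⟨x, hx.1⟩ = ⟨x, hx⟩ := dif_pos hx.2
  have e2 : ρ ⟨y, hy.1⟩ = ⟨y, hy⟩ := dif_pos hy.2
  rwa [e1, e2] at this

/-- a tree edge has two sides -/
theorem exists_side {ι : Type} {T : SimpleGraph ι} (hT : T.IsTree) {a t : ι} (hne : a ≠ t) :
    ∃ (b : ι) (R : Set ι), T.Adj a b ∧ IsSide T R b a ∧ t ∈ R := by
  classical
  obtain ⟨w⟩ := hT.1 a t
  obtain ⟨p, hp⟩ : ∃ p : T.Walk a t, p.IsPath := ⟨w.toPath, w.toPath.2⟩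
  cases p with
  | nil => exact absurd rfl hne
  | @cons _ b _ hadj q =>
    rw [SimpleGraph.Walk.cons_isPath_iff] at hp
    obtain ⟨hq, haq⟩ := hp
    refine ⟨b, {x | (T.deleteEdges {s(a, b)}).Reachable b x}, hadj, ⟨?_, ?_, ?_⟩, ?_⟩
    · exact SimpleGraph.Reachable.refl _
    · intro h
      have h1 := (SimpleGraph.isAcyclic_iff_forall_adj_isBridge.1 hT.2) hadj
      rw [SimpleGraph.isBridge_iff] at h1
      exact h1 h.symm
    · intro x hx y hy hxy
      by_cases he : s(x, y) = s(a, b)
      · rw [Sym2.eq_iff] at he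
        rcases he with ⟨h1, h2⟩ | ⟨h1, h2⟩
        · exfalso
          apply hy
          rw [h2]
          exact SimpleGraph.Reachable.refl _
        · exact ⟨h1, h2⟩
      · exfalso
        apply hy
        have h1 : (T.deleteEdges {s(a, b)}).Adj x y := by
          rw [SimpleGraph.deleteEdges_adj]
          exact ⟨hxy, he⟩
        exact SimpleGraph.Reachable.trans hx h1.reachable
    · have h1 : ∀ e ∈ q.edges, e ∈ (T.deleteEdges {s(a, b)}).edgeSet := by
        intro e he
        rw [SimpleGraph.edgeSet_deleteEdges]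
        refine ⟨q.edges_subset_edgeSet he, fun h2 => haq ?_⟩
        rw [Set.mem_singleton_iff] at h2
        rw [h2] at he
        exact q.fst_mem_support_of_mem_edges he
      exact ⟨q.transfer _ h1⟩

/-- restriction of a decomposition -/
theorem pull {k : ℕ} {ι V W : Type} [Finite ι] [Finite V] {T : SimpleGraph ι} {B : ι → Set V}
    (h : FD k T B) (R : Set ι)
    (hI : ∀ S : Set ι, (T.induce S).Preconnected → (T.induce (S ∩ R)).Preconnected)
    (hG : ∀ u v t, u ∈ B t → v ∈ B t → (∃ t' ∈ R, u ∈ B t') → (∃ t' ∈ R, v ∈ B t') →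
      ∃ t' ∈ R, u ∈ B t' ∧ v ∈ B t')
    (f : W → V) (hf : Function.Injective f) (hW : ∀ w, ∃ t ∈ R, f w ∈ B t) :
    FD k T (fun t => {w | t ∈ R ∧ f w ∈ B t}) ∧
      gm (fun t => {w | t ∈ R ∧ f w ∈ B t}) = (gm B).comap f := by
  have hsub : ∀ t, f '' {w | t ∈ R ∧ f w ∈ B t} ⊆ B t := by
    rintro t _ ⟨w, hw, rfl⟩
    exact hw.2
  refine ⟨⟨fun w => ?_, fun w => ?_, fun t => ?_, fun a b hab => ?_⟩, ?_⟩
  · obtain ⟨t, ht, ht'⟩ := hW w
    exact ⟨t, ht, ht'⟩
  · have h1 := hI _ (h.con (f w))
    have e : {t | w ∈ {w | t ∈ R ∧ f w ∈ B t}} = {t | f w ∈ B t} ∩ R := by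
      ext t
      exact ⟨fun h => ⟨h.2, h.1⟩, fun h => ⟨h.2, h.1⟩⟩
    rw [e]
    exact h1
  · rw [← Set.ncard_image_of_injective _ hf]
    exact (Set.ncard_le_ncard (hsub t) (Set.toFinite _)).trans (h.card t)
  · rcases h.free a b hab with h1 | ⟨h1, h2⟩
    · left
      rw [← Set.ncard_image_of_injective _ hf]
      refine (Set.ncard_le_ncard ?_ (Set.toFinite _)).trans h1
      rintro _ ⟨w, hw, rfl⟩
      exact ⟨hw.1.2, hw.2.2⟩
    · right
      constructor
      · rw [← Set.ncard_image_of_injective _ hf]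
        exact (Set.ncard_le_ncard (hsub a) (Set.toFinite _)).trans h1
      · rw [← Set.ncard_image_of_injective _ hf]
        exact (Set.ncard_le_ncard (hsub b) (Set.toFinite _)).trans h2
  · ext u v
    rw [gm_adj, SimpleGraph.comap_adj, gm_adj]
    constructor
    · rintro ⟨h1, t, h2, h3⟩
      exact ⟨fun e => h1 (hf e), t, h2.2, h3.2⟩
    · rintro ⟨h1, t, h2, h3⟩
      obtain ⟨t', ht', h4, h5⟩ := hG _ _ t h2 h3 (hW u) (hW v)
      exact ⟨fun e => h1 (congrArg f e), t', ⟨ht', h4⟩, ⟨ht', h5⟩⟩

/-- the pieces -/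
def Cls (k : ℕ) (V : Type) (G : SimpleGraph V) : Prop := TreewidthLE G 3 ∨ PathwidthLE G k

theorem tw_base {k : ℕ} {ι V : Type} [Finite ι] [Finite V] {T : SimpleGraph ι} (hT : T.IsTree)
    {B : ι → Set V} (h : FD k T B) (hall : ∀ t, (B t).ncard ≤ 4) : TreewidthLE (gm B) 3 := by
  classical
  refine ⟨ι, inferInstance, T, fun t => (Set.toFinite (B t)).toFinset, hT, ?_, ?_, ?_, ?_⟩
  · intro v
    obtain ⟨t, ht⟩ := h.cov v
    exact ⟨t, by simpa using ht⟩
  · rintro u v ⟨-, t, h1, h2⟩
    exact ⟨t, by simpa using h1, by simpa using h2⟩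
  · intro v
    have e : {t | v ∈ (Set.toFinite (B t)).toFinset} = {t | v ∈ B t} := by
      ext t; simp
    rw [e]
    exact h.con v
  · intro t
    rw [← Set.ncard_eq_toFinset_card]
    exact hall t

theorem small_piece {k : ℕ} {V : Type} {G : SimpleGraph V} {S : Set V} (hk : 4 ≤ k)
    {a b c d : V} (hS : S ⊆ {a, b, c, d}) : EdgeSumOf (Cls k) (G.induce S) := by
  classical
  have hfin : ({a, b, c, d} : Set V).Finite := Set.toFinite _
  have : Finite S := (hfin.subset hS).to_subtype
  refine EdgeSumOf.base (Or.inr (pathwidth_of_card _ ?_))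
  have h1 : Nat.card S = S.ncard := rfl
  have h2 : S.ncard ≤ ({a, b, c, d} : Set V).ncard := Set.ncard_le_ncard hS hfin
  have h3 : ({a, b, c, d} : Set V).ncard ≤ 4 := by
    have e : ({a, b, c, d} : Set V) = ↑({a, b, c, d} : Finset V) := by simp
    rw [e, Set.ncard_coe_finset]
    exact Finset.card_le_four
  omega

theorem main_free (k : ℕ) {ι : Type} [Finite ι] {T : SimpleGraph ι} (hT : T.IsTree) (n : ℕ) :
    ∀ (V : Type) [Finite V] (B : ι → Set V), FD k T B → {t | (B t).Nonempty}.ncard ≤ n →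
      EdgeSumOf (Cls k) (gm B) := by
  classical
  induction n with
  | zero =>
    intro V _ B h hn
    refine EdgeSumOf.base (Or.inl (tw_base hT h fun t => ?_))
    have h1 : {t | (B t).Nonempty} = ∅ := by
      rw [← Set.ncard_eq_zero (Set.toFinite _)]
      omega
    have h2 : B t = ∅ := by
      by_contra h3
      have : t ∈ {t | (B t).Nonempty} := Set.nonempty_iff_ne_empty.2 h3
      rw [h1] at this
      exact this
    rw [h2]
    simp
  | succ n ih =>
    intro V _ B h hn
    by_cases hall : ∀ t, (B t).ncard ≤ 4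
    · exact EdgeSumOf.base (Or.inl (tw_base hT h hall))
    push Not at hall
    obtain ⟨a, ha⟩ := hall
    have hk : 4 ≤ k := by have := h.card a; omega
    have hane : (B a).Nonempty := by
      rw [← Set.ncard_pos (Set.toFinite _)]
      omega
    by_cases hother : ∀ t, t ≠ a → B t = ∅
    · refine EdgeSumOf.base (Or.inr (pathwidth_of_card _ ?_))
      have e : B a = Set.univ := by
        refine Set.eq_univ_of_forall fun v => ?_
        obtain ⟨t, ht⟩ := h.cov v
        by_cases hta : t = a
        · rw [← hta]; exact ht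
        · rw [hother t hta] at ht
          exact absurd ht (Set.notMem_empty v)
      have := h.card a
      rw [e, Set.ncard_univ] at this
      exact this
    push Not at hother
    obtain ⟨t1, ht1a, ht1⟩ := hother
    obtain ⟨b, R, hab, hside, ht1R⟩ := exists_side hT ht1a.symm
    have hZ2 : (B a ∩ B b).ncard ≤ 2 := by
      rcases h.free a b hab with h1 | ⟨h1, -⟩
      · exact h1
      · omega
    have step : ∀ (R : Set ι),
        (∀ S : Set ι, (T.induce S).Preconnected → (T.induce (S ∩ R)).Preconnected) →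
        (∀ u v t, u ∈ B t → v ∈ B t → (∃ t' ∈ R, u ∈ B t') → (∃ t' ∈ R, v ∈ B t') →
          ∃ t' ∈ R, u ∈ B t' ∧ v ∈ B t') →
        ∀ (W : Type) (f : W → V), Function.Injective f → (∀ w, ∃ t ∈ R, f w ∈ B t) →
        ∀ t0, (B t0).Nonempty → (∀ w, ¬ (t0 ∈ R ∧ f w ∈ B t0)) →
        EdgeSumOf (Cls k) ((gm B).comap f) := by
      intro R hI hG W f hf hW t0 ht0 ht0'
      have hWf : Finite W := Finite.of_injective f hf
      obtain ⟨h1, h2⟩ := pull h R hI hG f hf hW
      rw [← h2]
      refine ih W _ h1 ?_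
      have h3 : {t | {w | t ∈ R ∧ f w ∈ B t}.Nonempty} ⊆ {t | (B t).Nonempty} \ {t0} := by
        rintro t ⟨w, hw⟩
        refine ⟨⟨f w, hw.2⟩, fun e => ?_⟩
        rw [Set.mem_singleton_iff] at e
        rw [e] at hw
        exact ht0' w hw
      have h4 := Set.ncard_le_ncard h3 (Set.toFinite _)
      have h5 : ({t | (B t).Nonempty} \ {t0}).ncard < {t | (B t).Nonempty}.ncard :=
        Set.ncard_diff_singleton_lt_of_mem ht0 (Set.toFinite _)
      omega
    have bR : b ∈ R := hside.mem
    have aR : a ∉ R := hside.notMem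
    have hZ : ∀ v, (∃ t, t ∉ R ∧ v ∈ B t) → (∃ t ∈ R, v ∈ B t) → v ∈ B a ∧ v ∈ B b := by
      rintro v ⟨t, ht, htv⟩ ⟨t', ht', htv'⟩
      have := hside.both (h.con v) (x := t') (y := t) htv' ht' htv ht
      exact ⟨this.2, this.1⟩
    obtain ⟨A, hA⟩ : ∃ A : Set V, ∀ v, v ∈ A ↔ ∃ t, t ∉ R ∧ v ∈ B t := ⟨{v | _}, fun v => Iff.rfl⟩
    obtain ⟨C, hC⟩ : ∃ C : Set V, ∀ v, v ∈ C ↔ ∃ t ∈ R, v ∈ B t := ⟨{v | _}, fun v => Iff.rfl⟩
    have hmem : ∀ v, v ∈ A ∨ v ∈ C := by
      intro v
      obtain ⟨t, ht⟩ := h.cov v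
      by_cases htR : t ∈ R
      · exact Or.inr ((hC v).2 ⟨t, htR, ht⟩)
      · exact Or.inl ((hA v).2 ⟨t, htR, ht⟩)
    have hAC : ∀ v, v ∈ A → v ∈ C → v ∈ B a ∩ B b := fun v h1 h2 => hZ v ((hA v).1 h1) ((hC v).1 h2)
    have hBA : ∀ v ∈ B a, v ∈ A := fun v hv => (hA v).2 ⟨a, aR, hv⟩
    have hBC : ∀ v ∈ B b, v ∈ C := fun v hv => (hC v).2 ⟨b, bR, hv⟩
    have hadj : ∀ u v, (gm B).Adj u v → (u ∈ A ∧ v ∈ A) ∨ (u ∈ C ∧ v ∈ C) := by
      rintro u v ⟨-, t, h1, h2⟩
      by_cases htR : t ∈ R
      · exact Or.inr ⟨(hC u).2 ⟨t, htR, h1⟩, (hC v).2 ⟨t, htR, h2⟩⟩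
      · exact Or.inl ⟨(hA u).2 ⟨t, htR, h1⟩, (hA v).2 ⟨t, htR, h2⟩⟩
    have sideC : ∀ (W : Type) (f : W → V), Function.Injective f → (∀ w, f w ∈ C) →
        EdgeSumOf (Cls k) ((gm B).comap f) := by
      intro W f hf hW
      refine step R (fun S hS => hside.inter hS) ?_ W f hf (fun w => (hC _).1 (hW w)) a hane
        (fun w hw => aR hw.1)
      intro u v t hu hv hu' hv'
      by_cases htR : t ∈ R
      · exact ⟨t, htR, hu, hv⟩
      · exact ⟨b, bR, (hZ u ⟨t, htR, hu⟩ hu').2, (hZ v ⟨t, htR, hv⟩ hv').2⟩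
    have sideA : ∀ (W : Type) (f : W → V), Function.Injective f → (∀ w, f w ∈ A) →
        EdgeSumOf (Cls k) ((gm B).comap f) := by
      intro W f hf hW
      refine step Rᶜ (fun S hS => hside.compl.inter hS) ?_ W f hf (fun w => (hA _).1 (hW w)) t1 ht1
        (fun w hw => hw.1 ht1R)
      intro u v t hu hv hu' hv'
      by_cases htR : t ∈ R
      · exact ⟨a, aR, (hZ u hu' ⟨t, htR, hu⟩).1, (hZ v hv' ⟨t, htR, hv⟩).1⟩
      · exact ⟨t, htR, hu, hv⟩
    obtain h2 | h1 | h0 : (B a ∩ B b).ncard = 2 ∨ (B a ∩ B b).ncard = 1 ∨ (B a ∩ B b).ncard = 0 := by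
      omega
    · -- two common vertices
      obtain ⟨s, t, hst, hZe⟩ := Set.ncard_eq_two.1 h2
      have hs : s ∈ B a ∩ B b := by rw [hZe]; exact Or.inl rfl
      have ht : t ∈ B a ∩ B b := by rw [hZe]; exact Or.inr rfl
      refine EdgeSumOf.glue (A := A) (B := C) (s := s) (t := t) ⟨hst, a, hs.1, ht.1⟩ ?_ ?_ ?_ ?_ ?_
      · exact Set.eq_univ_of_forall hmem
      · rw [← hZe]
        ext v
        exact ⟨fun hv => hAC v hv.1 hv.2, fun hv => ⟨hBA v hv.1, hBC v hv.2⟩⟩
      · intro u v hu hv huv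
        rcases hadj u v huv with h1 | h1
        · exact hv h1.2
        · exact hu h1.1
      · exact sideA A _ Subtype.val_injective fun w => w.2
      · exact sideC C _ Subtype.val_injective fun w => w.2
    · -- one common vertex
      obtain ⟨p, hZe⟩ := Set.ncard_eq_one.1 h1
      have hp : p ∈ B a ∩ B b := by rw [hZe]; exact rfl
      have hAC' : ∀ v, v ∈ A → v ∈ C → v = p := by
        intro v h1 h2
        have := hAC v h1 h2
        rw [hZe] at this
        exact this
      obtain ⟨q, hq, hqp⟩ := Set.exists_ne_of_one_lt_ncard (s := B a) (by omega) p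
      have hqC : q ∉ C := fun h1 => hqp (hAC' q (hBA q hq) h1)
      by_cases hr : ∃ t ∈ R, ∃ r, r ≠ p ∧ p ∈ B t ∧ r ∈ B t
      · obtain ⟨t, htR, r, hrp, hpt, hrt⟩ := hr
        have hrC : r ∈ C := (hC r).2 ⟨t, htR, hrt⟩
        have hpC : p ∈ C := hBC p hp.2
        have hpA : p ∈ A := hBA p hp.1
        have hrA : r ∉ A := fun h1 => hrp (hAC' r h1 hrC)
        have hqr : q ≠ r := fun e => hrA (e ▸ hBA q hq)
        refine EdgeSumOf.glue (A := A) (B := insert q C) (s := p) (t := q)
          ⟨hqp.symm, a, hp.1, hq⟩ ?_ ?_ ?_ ?_ ?_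
        · refine Set.eq_univ_of_forall fun v => ?_
          rcases hmem v with h1 | h1
          · exact Or.inl h1
          · exact Or.inr (Or.inr h1)
        · ext v
          constructor
          · rintro ⟨h1, rfl | h2⟩
            · exact Or.inr rfl
            · exact Or.inl (hAC' v h1 h2)
          · rintro (rfl | rfl)
            · exact ⟨hpA, Or.inr hpC⟩
            · exact ⟨hBA _ hq, Or.inl rfl⟩
        · intro u v hu hv huv
          rcases hadj u v huv with h1 | h1
          · exact hv h1.2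
          · exact hu (Or.inr h1.1)
        · exact sideA A _ Subtype.val_injective fun w => w.2
        · refine EdgeSumOf.glue (A := {x : ↥(insert q C) | (x : V) ∈ C})
            (B := {x : ↥(insert q C) | (x : V) = p ∨ (x : V) = q ∨ (x : V) = r})
            (s := ⟨p, Or.inr hpC⟩) (t := ⟨r, Or.inr hrC⟩) ?_ ?_ ?_ ?_ ?_ ?_
          · exact ⟨hrp.symm, t, hpt, hrt⟩
          · refine Set.eq_univ_of_forall ?_
            rintro ⟨v, rfl | hv⟩
            · exact Or.inr (Or.inr (Or.inl rfl))
            · exact Or.inl hv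
          · ext ⟨v, hv⟩
            simp only [Set.mem_inter_iff, Set.mem_setOf_eq, Set.mem_insert_iff,
              Set.mem_singleton_iff, Subtype.mk.injEq]
            constructor
            · rintro ⟨h1, h2 | h2 | h2⟩
              · exact Or.inl (Subtype.ext h2)
              · exact absurd (h2 ▸ h1) hqC
              · exact Or.inr (Subtype.ext h2)
            · rintro (h1 | h1)
              · have h1' : v = p := congrArg Subtype.val h1
                exact ⟨h1' ▸ hpC, Or.inl h1'⟩
              · have h1' : v = r := congrArg Subtype.val h1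
                exact ⟨h1' ▸ hrC, Or.inr (Or.inr h1')⟩
          · rintro ⟨u, hu'⟩ ⟨v, hv'⟩ hu hv huv
            simp only [Set.mem_setOf_eq, not_or] at hu hv
            have huC : u ∈ C := hu'.resolve_left hu.2.1
            have huv' : (gm B).Adj u v := huv
            rcases hadj u v huv' with h1 | h1
            · exact hu.1 (hAC' u h1.1 huC)
            · exact hv h1.2
          · have := sideC ↥{x : ↥(insert q C) | (x : V) ∈ C} (fun w => w.1.1)
              (Subtype.val_injective.comp Subtype.val_injective) fun w => w.2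
            exact this
          · refine small_piece hk (a := ⟨p, Or.inr hpC⟩) (b := ⟨q, Or.inl rfl⟩)
              (c := ⟨r, Or.inr hrC⟩) (d := ⟨r, Or.inr hrC⟩) ?_
            rintro ⟨v, hv⟩ (h1 | h1 | h1)
            · exact Or.inl (Subtype.ext h1)
            · exact Or.inr (Or.inl (Subtype.ext h1))
            · exact Or.inr (Or.inr (Or.inl (Subtype.ext h1)))
      · -- remove `p` from all bags of `R`
        push Not at hr
        have hr' : ∀ t ∈ R, p ∈ B t → ∀ r ∈ B t, r = p := by
          intro t ht hpt r hrt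
          by_contra hne
          exact hr t ht r hne hpt hrt
        obtain ⟨B', hB'⟩ : ∃ B' : ι → Set V, ∀ t v, v ∈ B' t ↔ v ∈ B t ∧ (t ∈ R → v ≠ p) :=
          ⟨fun t => {v | v ∈ B t ∧ (t ∈ R → v ≠ p)}, fun t v => Iff.rfl⟩
        have hsub : ∀ t, B' t ⊆ B t := fun t v hv => ((hB' t v).1 hv).1
        have hFD : FD k T B' := by
          refine ⟨fun v => ?_, fun v => ?_, fun t => ?_, fun x y hxy => ?_⟩
          · by_cases hvp : v = p
            · exact ⟨a, (hB' _ _).2 ⟨hvp ▸ hp.1, fun h1 => absurd h1 aR⟩⟩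
            · obtain ⟨t, ht⟩ := h.cov v
              exact ⟨t, (hB' _ _).2 ⟨ht, fun _ => hvp⟩⟩
          · by_cases hvp : v = p
            · have e : {t | v ∈ B' t} = {t | v ∈ B t} ∩ Rᶜ := by
                ext t
                constructor
                · intro h1
                  have h2 := (hB' _ _).1 h1
                  exact ⟨h2.1, fun h3 => h2.2 h3 hvp⟩
                · intro h1
                  exact (hB' _ _).2 ⟨h1.1, fun h3 => absurd h3 h1.2⟩
              rw [e]
              exact hside.compl.inter (h.con v)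
            · have e : {t | v ∈ B' t} = {t | v ∈ B t} := by
                ext t
                constructor
                · intro h1
                  exact ((hB' _ _).1 h1).1
                · intro h1
                  exact (hB' _ _).2 ⟨h1, fun _ => hvp⟩
              rw [e]
              exact h.con v
          · exact (Set.ncard_le_ncard (hsub t) (Set.toFinite _)).trans (h.card t)
          · rcases h.free x y hxy with h1 | ⟨h1, h2⟩
            · exact Or.inl ((Set.ncard_le_ncard (Set.inter_subset_inter (hsub x) (hsub y))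
                (Set.toFinite _)).trans h1)
            · exact Or.inr ⟨(Set.ncard_le_ncard (hsub x) (Set.toFinite _)).trans h1,
                (Set.ncard_le_ncard (hsub y) (Set.toFinite _)).trans h2⟩
        have hgm : gm B' = gm B := by
          ext u v
          rw [gm_adj, gm_adj]
          refine and_congr_right fun huv => exists_congr fun t => ?_
          rw [hB', hB']
          constructor
          · rintro ⟨h1, h2⟩
            exact ⟨h1.1, h2.1⟩
          · rintro ⟨h1, h2⟩
            refine ⟨⟨h1, fun htR e => ?_⟩, ⟨h2, fun htR e => ?_⟩⟩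
            · exact huv (e.trans (hr' t htR (e ▸ h1) v h2).symm)
            · exact huv ((hr' t htR (e ▸ h2) u h1).trans e.symm)
        rw [← hgm]
        refine ih V B' hFD ?_
        have h3 : {t | (B' t).Nonempty} ⊆ {t | (B t).Nonempty} \ {b} := by
          rintro t ⟨v, hv⟩
          refine ⟨⟨v, hsub t hv⟩, fun e => ?_⟩
          rw [Set.mem_singleton_iff] at e
          rw [e] at hv
          have h4 := (hB' _ _).1 hv
          exact h4.2 bR (hr' b bR hp.2 v h4.1)
        have h4 := Set.ncard_le_ncard h3 (Set.toFinite _)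
        have h5 : ({t | (B t).Nonempty} \ {b}).ncard < {t | (B t).Nonempty}.ncard :=
          Set.ncard_diff_singleton_lt_of_mem (a := b) ⟨p, hp.2⟩ (Set.toFinite _)
        omega
    · -- no common vertex
      have hZe : B a ∩ B b = ∅ := (Set.ncard_eq_zero (Set.toFinite _)).1 h0
      have hAC' : ∀ v, v ∈ A → v ∉ C := by
        intro v h1 h2
        have := hAC v h1 h2
        rw [hZe] at this
        exact this
      obtain ⟨q, hq, q', hq', hqq⟩ := (Set.one_lt_ncard (Set.toFinite _)).1
        (show 1 < (B a).ncard by omega)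
      have hqA : q ∈ A := hBA q hq
      have hqA' : q' ∈ A := hBA q' hq'
      have hqC : q ∉ C := hAC' q hqA
      have hqC' : q' ∉ C := hAC' q' hqA'
      by_cases hr : ∃ t ∈ R, ∃ r ∈ B t, ∃ r' ∈ B t, r ≠ r'
      · obtain ⟨t, htR, r, hrt, r', hrt', hrr⟩ := hr
        have hrC : r ∈ C := (hC r).2 ⟨t, htR, hrt⟩
        have hrC' : r' ∈ C := (hC r').2 ⟨t, htR, hrt'⟩
        refine EdgeSumOf.glue (A := A) (B := {v | v = q ∨ v = q' ∨ v ∈ C}) (s := q) (t := q')
          ⟨hqq, a, hq, hq'⟩ ?_ ?_ ?_ ?_ ?_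
        · refine Set.eq_univ_of_forall fun v => ?_
          rcases hmem v with h1 | h1
          · exact Or.inl h1
          · exact Or.inr (Or.inr (Or.inr h1))
        · ext v
          constructor
          · rintro ⟨h1, rfl | rfl | h2⟩
            · exact Or.inl rfl
            · exact Or.inr rfl
            · exact absurd h2 (hAC' v h1)
          · rintro (rfl | rfl)
            · exact ⟨hqA, Or.inl rfl⟩
            · exact ⟨hqA', Or.inr (Or.inl rfl)⟩
        · intro u v hu hv huv
          rcases hadj u v huv with h1 | h1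
          · exact hv h1.2
          · exact hu (Or.inr (Or.inr h1.1))
        · exact sideA A _ Subtype.val_injective fun w => w.2
        · refine EdgeSumOf.glue (A := {x : ↥{v | v = q ∨ v = q' ∨ v ∈ C} | (x : V) ∈ C})
            (B := {x : ↥{v | v = q ∨ v = q' ∨ v ∈ C} |
              (x : V) = q ∨ (x : V) = q' ∨ (x : V) = r ∨ (x : V) = r'})
            (s := ⟨r, Or.inr (Or.inr hrC)⟩) (t := ⟨r', Or.inr (Or.inr hrC')⟩) ?_ ?_ ?_ ?_ ?_ ?_
          · exact ⟨hrr, t, hrt, hrt'⟩
          · refine Set.eq_univ_of_forall ?_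
            rintro ⟨v, rfl | rfl | hv⟩
            · exact Or.inr (Or.inl rfl)
            · exact Or.inr (Or.inr (Or.inl rfl))
            · exact Or.inl hv
          · ext ⟨v, hv⟩
            simp only [Set.mem_inter_iff, Set.mem_setOf_eq, Set.mem_insert_iff,
              Set.mem_singleton_iff, Subtype.mk.injEq]
            constructor
            · rintro ⟨h1, h2 | h2 | h2 | h2⟩
              · exact absurd (h2 ▸ h1) hqC
              · exact absurd (h2 ▸ h1) hqC'
              · exact Or.inl h2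
              · exact Or.inr h2
            · rintro (h1 | h1)
              · exact ⟨h1 ▸ hrC, Or.inr (Or.inr (Or.inl h1))⟩
              · exact ⟨h1 ▸ hrC', Or.inr (Or.inr (Or.inr h1))⟩
          · rintro ⟨u, hu'⟩ ⟨v, hv'⟩ hu hv huv
            simp only [Set.mem_setOf_eq, not_or] at hu hv
            have huC : u ∈ C := (hu'.resolve_left hu.1).resolve_left hu.2.1
            have huv' : (gm B).Adj u v := huv
            rcases hadj u v huv' with h1 | h1
            · exact hAC' u h1.1 huC
            · exact hv h1.2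
          · have := sideC ↥{x : ↥{v | v = q ∨ v = q' ∨ v ∈ C} | (x : V) ∈ C} (fun w => w.1.1)
              (Subtype.val_injective.comp Subtype.val_injective) fun w => w.2
            exact this
          · refine small_piece hk (a := ⟨q, Or.inl rfl⟩) (b := ⟨q', Or.inr (Or.inl rfl)⟩)
              (c := ⟨r, Or.inr (Or.inr hrC)⟩) (d := ⟨r', Or.inr (Or.inr hrC')⟩) ?_
            rintro ⟨v, hv⟩ (h1 | h1 | h1 | h1)
            · exact Or.inl (Subtype.ext h1)
            · exact Or.inr (Or.inl (Subtype.ext h1))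
            · exact Or.inr (Or.inr (Or.inl (Subtype.ext h1)))
            · exact Or.inr (Or.inr (Or.inr (Subtype.ext h1)))
      · -- an isolated vertex
        push Not at hr
        obtain ⟨v, hv⟩ := ht1
        have hvC : v ∈ C := (hC v).2 ⟨t1, ht1R, hv⟩
        have hvq : v ≠ q := fun e => hqC (e ▸ hvC)
        have hvq' : v ≠ q' := fun e => hqC' (e ▸ hvC)
        refine EdgeSumOf.glue (A := {v}ᶜ) (B := {v, q, q'}) (s := q) (t := q')
          ⟨hqq, a, hq, hq'⟩ ?_ ?_ ?_ ?_ ?_
        · refine Set.eq_univ_of_forall fun u => ?_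
          by_cases huv : u = v
          · exact Or.inr (Or.inl huv)
          · exact Or.inl huv
        · ext u
          constructor
          · rintro ⟨h1, rfl | h2⟩
            · exact absurd rfl h1
            · exact h2
          · rintro (rfl | rfl)
            · exact ⟨fun e => hvq e.symm, Or.inr (Or.inl rfl)⟩
            · exact ⟨fun e => hvq' e.symm, Or.inr (Or.inr rfl)⟩
        · rintro u w hu hw ⟨huw, t, h1, h2⟩
          have hwv : w = v := by simpa using hw
          subst hwv
          have htR : t ∈ R := by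
            by_contra htR
            exact hAC' w ((hA w).2 ⟨t, htR, h2⟩) hvC
          exact huw (hr t htR u h1 w h2)
        · refine step Set.univ (fun S hS => by rwa [Set.inter_univ]) ?_ _ _ Subtype.val_injective
            (fun w => ?_) t1 ⟨v, hv⟩ ?_
          · intro x y t hx hy _ _
            exact ⟨t, trivial, hx, hy⟩
          · obtain ⟨t, ht⟩ := h.cov w
            exact ⟨t, trivial, ht⟩
          · rintro ⟨w, hw⟩ ⟨-, h1⟩
            exact hw (hr t1 ht1R w h1 v hv)
        · refine small_piece hk (a := v) (b := q) (c := q') (d := q') ?_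
          rintro u (h1 | h1 | h1)
          · exact Or.inl h1
          · exact Or.inr (Or.inl h1)
          · exact Or.inr (Or.inr (Or.inl h1))

/-- Graphs with a tree decomposition of width `k` all of whose edges are free. -/
theorem free_edgeSum (k : ℕ) {V : Type} [Finite V] (G : SimpleGraph V) (h : DepthTD k 0 G) :
    EdgeSumOf (fun V G => TreewidthLE G 3 ∨ PathwidthLE G k) G := by
  classical
  obtain ⟨ι, hι, T, B, r, hT, hcov, hedge, hcon, hcard, hfree⟩ := h
  have key : ∀ (t : ι) (p : T.Walk r t), p.IsPath → ∀ a b, s(a, b) ∈ p.edges → FreeEdge B a b := by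
    intro t p hp a b hab
    obtain ⟨S, hS, hS'⟩ := hfree t p hp
    have hS0 : S = ∅ := Finset.card_eq_zero.1 (Nat.le_zero.1 hS)
    rcases hS' a b hab with h1 | h1
    · exact h1
    · rw [hS0] at h1
      exact absurd h1 (Finset.notMem_empty _)
  have hall : ∀ a b, T.Adj a b → FreeEdge B a b := by
    intro a b hab
    obtain ⟨w⟩ := hT.1 r a
    obtain ⟨p, hp⟩ : ∃ p : T.Walk r a, p.IsPath := ⟨w.toPath, w.toPath.2⟩
    by_cases hb : b ∈ p.support
    · have hq : (p.takeUntil b hb).IsPath := hp.takeUntil hb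
      have ha : a ∉ (p.takeUntil b hb).support := by
        intro ha
        exact hab.ne (SimpleGraph.Walk.endpoint_notMem_support_takeUntil hp hb hab.ne ha).elim
      have := key a ((p.takeUntil b hb).concat hab.symm) (hq.concat ha hab.symm) a b (by
        rw [SimpleGraph.Walk.edges_concat]
        simp [Sym2.eq_swap])
      exact this
    · exact key b (p.concat hab) (hp.concat hb hab) a b (by
        rw [SimpleGraph.Walk.edges_concat]
        simp)
  have hFD : FD k T (fun t => (↑(B t) : Set V)) := by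
    refine ⟨fun v => ?_, fun v => ?_, fun t => ?_, fun a b hab => ?_⟩
    · obtain ⟨t, ht⟩ := hcov v
      exact ⟨t, by exact_mod_cast ht⟩
    · exact hcon v
    · rw [Set.ncard_coe_finset]
      exact hcard t
    · rcases hall a b hab with h1 | ⟨h1, h2⟩
      · left
        exact h1
      · right
        rw [Set.ncard_coe_finset, Set.ncard_coe_finset]
        exact ⟨h1, h2⟩
  have h1 := main_free k hT _ V _ hFD le_rfl
  refine EdgeSumOf.del h1 ?_
  intro u v huv
  obtain ⟨t, h2, h3⟩ := hedge u v huv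
  exact ⟨huv.ne, t, h2, h3⟩

end Vale.Agent.P235.H873
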